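import Vale.Agent.P177.Perf.GrowthK
import Vale.Agent.P177.KM.KMass

/-!
P177: the Koszul homology `(KC V ys).H i` and the Koszul homology of the `kz` complex of P202.
-/

namespace Vale.Agent.P177.KG

open Vale.Agent.P202.Mix
open scoped ENNReal

universe u

/-! ### additive lengths and restriction of scalars -/

section Res

variable {R : Type u} [CommRing R]

/-- an `AddLen` as an `ALen`. -/
def ALen.of (L : AddLen R) : ALen R := ⟨L.len, L.zero, L.add⟩

theorem ALen.of_len (L : AddLen R) (M : Type u) [AddCommGroup M] [Module R M] :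
    (ALen.of L).len M = L.len M := rfl

/-- restriction of scalars along `R → C`. -/
def Rs (R C : Type u) [CommRing R] [CommRing C] [Algebra R C] (M : Type u) : Type u := M

section

variable (C : Type u) [CommRing C] [Algebra R C] (M : Type u) [AddCommGroup M] [Module C M]

instance : AddCommGroup (Rs R C M) := inferInstanceAs (AddCommGroup M)

instance : Module R (Rs R C M) :=
  letI : AddCommGroup (Rs R C M) := inferInstanceAs (AddCommGroup M)
  Module.compHom M (algebraMap R C)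

end

/-- a linear map over `C` as a linear map over `R`. -/
def Rs.map {C : Type u} [CommRing C] [Algebra R C] {M N : Type u} [AddCommGroup M] [Module C M]
    [AddCommGroup N] [Module C N] (f : M →ₗ[C] N) : Rs R C M →ₗ[R] Rs R C N where
  toFun x := f x
  map_add' x y := f.map_add x y
  map_smul' r x := f.map_smul (algebraMap R C r) x

/-- an additive length over `R` as an additive length over the `R`-algebra `C`. -/
noncomputable def ALen.res (L : ALen R) (C : Type u) [CommRing C] [Algebra R C] : ALen C where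
  len := fun M [AddCommGroup M] [Module C M] => L.len (Rs R C M)
  zero := by
    have : Subsingleton (Rs R C PUnit.{u + 1}) :=
      inferInstanceAs (Subsingleton PUnit.{u + 1})
    exact len_subsingleton L
  add f g hf hg hfg := L.add (Rs.map f) (Rs.map g) hf hg hfg

theorem ALen.res_len (L : ALen R) {C : Type u} [CommRing C] [Algebra R C] (M : Type u)
    [AddCommGroup M] [Module C M] [Module R M] [IsScalarTower R C M] :
    (L.res C).len M = L.len M := by
  let e : Rs R C M ≃ₗ[R] M :=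
    { toFun := fun x => x
      map_add' := fun _ _ => rfl
      map_smul' := fun r x => algebraMap_smul C r (show M from x)
      invFun := fun x => x
      left_inv := fun _ => rfl
      right_inv := fun _ => rfl }
  exact len_congr L e

end Res

/-! ### splitting off the first element -/

section Split

variable {V : Type u} {n : ℕ}

/-- restriction to the sets without `0`. -/
def ra (v : Finset (Fin (n + 1)) → V) : Finset (Fin n) → V := fun J => v (J.map (Fin.succEmb n))

/-- restriction to the sets with `0`. -/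
def rb (v : Finset (Fin (n + 1)) → V) : Finset (Fin n) → V :=
  fun J => v (insert 0 (J.map (Fin.succEmb n)))

/-- the preimage under `succ`. -/
def pre (J : Finset (Fin (n + 1))) : Finset (Fin n) := Finset.univ.filter fun k => k.succ ∈ J

/-- glueing. -/
def glue (a b : Finset (Fin n) → V) : Finset (Fin (n + 1)) → V :=
  fun J => if 0 ∈ J then b (pre J) else a (pre J)

theorem zero_notMem_map (J : Finset (Fin n)) : (0 : Fin (n + 1)) ∉ J.map (Fin.succEmb n) := by
  simp

theorem succ_mem_map {J : Finset (Fin n)} {k : Fin n} : k.succ ∈ J.map (Fin.succEmb n) ↔ k ∈ J := by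
  simp

theorem pre_map (J : Finset (Fin n)) : pre (J.map (Fin.succEmb n)) = J := by
  ext k
  simp [pre]

theorem pre_insert (J : Finset (Fin n)) : pre (insert 0 (J.map (Fin.succEmb n))) = J := by
  ext k
  simp [pre, Fin.succ_ne_zero]

theorem map_pre {J : Finset (Fin (n + 1))} (h : 0 ∉ J) : (pre J).map (Fin.succEmb n) = J := by
  ext k
  refine Fin.cases ?_ (fun k => ?_) k
  · simp [h]
  · simp [pre]

theorem insert_map_pre {J : Finset (Fin (n + 1))} (h : 0 ∈ J) :
    insert 0 ((pre J).map (Fin.succEmb n)) = J := by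
  ext k
  refine Fin.cases ?_ (fun k => ?_) k
  · simp [h]
  · simp [pre, Fin.succ_ne_zero]

theorem ra_glue (a b : Finset (Fin n) → V) : ra (glue a b) = a := by
  funext J
  rw [ra, glue, if_neg (zero_notMem_map J), pre_map]

theorem rb_glue (a b : Finset (Fin n) → V) : rb (glue a b) = b := by
  funext J
  rw [rb, glue, if_pos (Finset.mem_insert_self _ _), pre_insert]

theorem glue_ra_rb (v : Finset (Fin (n + 1)) → V) : glue (ra v) (rb v) = v := by
  funext J
  by_cases h : 0 ∈ J
  · rw [glue, if_pos h, rb, insert_map_pre h]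
  · rw [glue, if_neg h, ra, map_pre h]

theorem card_pre {J : Finset (Fin (n + 1))} (h : 0 ∉ J) : (pre J).card = J.card := by
  conv_rhs => rw [← map_pre h, Finset.card_map]

theorem card_pre' {J : Finset (Fin (n + 1))} (h : 0 ∈ J) : (pre J).card + 1 = J.card := by
  conv_rhs => rw [← insert_map_pre h, Finset.card_insert_of_notMem (zero_notMem_map _),
    Finset.card_map]

end Split

section Main

variable {C : Type u} [CommRing C] {V : Type u} [AddCommGroup V] [Module C V] {n : ℕ}

/-- the Koszul differential as a function. -/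
def kzf (y : Fin n → C) (v : Finset (Fin n) → V) : Finset (Fin n) → V :=
  fun J => ∑ l ∈ Jᶜ, ksg l J • y l • v (insert l J)

theorem kzf_eq (y : Fin n → C) (v : Finset (Fin n) → V) (J : Finset (Fin n)) :
    kzf y v J = ∑ l, if l ∈ J then 0 else ksg l J • y l • v (insert l J) := by
  rw [kzf]
  rw [Finset.sum_ite, Finset.sum_const_zero, zero_add]
  refine Finset.sum_congr ?_ fun _ _ => rfl
  ext l
  simp

theorem ksg_zero (J : Finset (Fin (n + 1))) : ksg 0 J = 1 := by
  rw [ksg, Finset.filter_false_of_mem (fun k _ => by simp), Finset.card_empty, pow_zero]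

theorem filter_map_succ (J : Finset (Fin n)) (k : Fin n) :
    (J.map (Fin.succEmb n)).filter (· < k.succ) = (J.filter (· < k)).map (Fin.succEmb n) := by
  ext l
  refine Fin.cases ?_ (fun l => ?_) l
  · simp
  · simp [Fin.succ_lt_succ_iff]

theorem ksg_succ (k : Fin n) (J : Finset (Fin n)) :
    ksg k.succ (J.map (Fin.succEmb n)) = ksg k J := by
  rw [ksg, ksg, filter_map_succ, Finset.card_map]

theorem ksg_succ_insert (k : Fin n) (J : Finset (Fin n)) :
    ksg k.succ (insert 0 (J.map (Fin.succEmb n))) = - ksg k J := by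
  rw [ksg, ksg, Finset.filter_insert, if_pos (Fin.succ_pos k), filter_map_succ,
    Finset.card_insert_of_notMem (zero_notMem_map _), Finset.card_map, pow_succ, mul_neg_one]

theorem ra_kzf (y : Fin (n + 1) → C) (v : Finset (Fin (n + 1)) → V) :
    ra (kzf y v) = kzf (fun k => y k.succ) (ra v) + y 0 • rb v := by
  funext J
  rw [ra, kzf_eq, Fin.sum_univ_succ, if_neg (zero_notMem_map J), ksg_zero, one_smul, add_comm]
  refine congrArg₂ (· + ·) ?_ rfl
  rw [kzf_eq]
  refine Finset.sum_congr rfl fun k _ => ?_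
  by_cases h : k ∈ J
  · rw [if_pos h, if_pos (succ_mem_map.2 h)]
  · rw [if_neg h, if_neg (fun h' => h (succ_mem_map.1 h')), ksg_succ]
    have e : insert k.succ (J.map (Fin.succEmb n)) = (insert k J).map (Fin.succEmb n) := by
      rw [Finset.map_insert]
      rfl
    rw [e]
    rfl

theorem rb_kzf (y : Fin (n + 1) → C) (v : Finset (Fin (n + 1)) → V) :
    rb (kzf y v) = - kzf (fun k => y k.succ) (rb v) := by
  funext J
  rw [rb, kzf_eq, Fin.sum_univ_succ, if_pos (Finset.mem_insert_self _ _), zero_add]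
  show _ = - kzf (fun k => y k.succ) (rb v) J
  rw [kzf_eq, ← Finset.sum_neg_distrib]
  refine Finset.sum_congr rfl fun k _ => ?_
  have h0 : k.succ ∈ insert 0 (J.map (Fin.succEmb n)) ↔ k ∈ J := by
    rw [Finset.mem_insert, succ_mem_map]
    exact ⟨fun h => h.resolve_left (Fin.succ_ne_zero k), Or.inr⟩
  by_cases h : k ∈ J
  · rw [if_pos h, if_pos (h0.2 h), neg_zero]
  · rw [if_neg h, if_neg (fun h' => h (h0.1 h')), ksg_succ_insert, neg_smul]
    have e : insert k.succ (insert 0 (J.map (Fin.succEmb n))) =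
        insert 0 ((insert k J).map (Fin.succEmb n)) := by
      rw [Finset.map_insert, Finset.insert_comm]
      rfl
    rw [e]
    rfl

/-- the list of a tuple. -/
def lof : ∀ {n : ℕ}, (Fin n → C) → List C
  | 0, _ => []
  | _ + 1, y => y 0 :: lof fun k => y k.succ

omit [CommRing C] in
theorem lof_eq : ∀ {n : ℕ} (y : Fin n → C), lof y = List.ofFn y
  | 0, y => by rw [List.ofFn_zero]; rfl
  | n + 1, y => by
    rw [List.ofFn_succ, ← lof_eq]
    rfl

/-- the comparison map in degree `i`. -/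
def Phi : ∀ {n : ℕ} (y : Fin n → C) (i : ℕ), (Finset (Fin n) → V) → (KC V (lof y)).X i
  | 0, _, 0, v => (v ∅ : V)
  | 0, _, _ + 1, _ => PUnit.unit
  | _ + 1, y, 0, v => Phi (fun k => y k.succ) 0 (ra v)
  | _ + 1, y, i + 1, v => (KC V (lof fun k => y k.succ)).pr (y 0) i
      (Phi (fun k => y k.succ) (i + 1) (ra v)) (Phi (fun k => y k.succ) i (rb v))

theorem Phi_add : ∀ {n : ℕ} (y : Fin n → C) (i : ℕ) (v w : Finset (Fin n) → V),
    Phi y i (v + w) = Phi y i v + Phi y i w
  | 0, _, 0, _, _ => rfl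
  | 0, _, _ + 1, _, _ => rfl
  | _ + 1, y, 0, v, w => Phi_add (fun k => y k.succ) 0 (ra v) (ra w)
  | _ + 1, y, i + 1, v, w => by
    show (KC V (lof fun k => y k.succ)).pr (y 0) i _ _ =
      (KC V (lof fun k => y k.succ)).pr (y 0) i _ _ + (KC V (lof fun k => y k.succ)).pr (y 0) i _ _
    have h1 := Phi_add (fun k => y k.succ) (i + 1) (ra v) (ra w)
    have h2 := Phi_add (fun k => y k.succ) i (rb v) (rb w)
    have h3 : ra (v + w) = ra v + ra w := rfl
    have h4 : rb (v + w) = rb v + rb w := rfl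
    rw [h3, h4, h1, h2]
    rfl

theorem Phi_smul (c : C) : ∀ {n : ℕ} (y : Fin n → C) (i : ℕ) (v : Finset (Fin n) → V),
    Phi y i (c • v) = c • Phi y i v
  | 0, _, 0, _ => rfl
  | 0, _, _ + 1, _ => rfl
  | _ + 1, y, 0, v => Phi_smul c (fun k => y k.succ) 0 (ra v)
  | _ + 1, y, i + 1, v => by
    show (KC V (lof fun k => y k.succ)).pr (y 0) i _ _ =
      c • (KC V (lof fun k => y k.succ)).pr (y 0) i _ _
    have h1 := Phi_smul c (fun k => y k.succ) (i + 1) (ra v)
    have h2 := Phi_smul c (fun k => y k.succ) i (rb v)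
    have h3 : ra (c • v) = c • ra v := rfl
    have h4 : rb (c • v) = c • rb v := rfl
    rw [h3, h4, h1, h2]
    rfl

theorem Phi_neg {n : ℕ} (y : Fin n → C) (i : ℕ) (v : Finset (Fin n) → V) :
    Phi y i (- v) = - Phi y i v := by
  have h := Phi_smul (-1 : C) y i v
  rwa [neg_one_smul, neg_one_smul] at h

theorem Phi_kzf : ∀ {n : ℕ} (y : Fin n → C) (i : ℕ) (v : Finset (Fin n) → V),
    Phi y i (kzf y v) = (KC V (lof y)).d i (Phi y (i + 1) v)
  | 0, y, 0, v => by
    show kzf y v ∅ = 0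
    rw [kzf_eq]
    simp
  | 0, _, _ + 1, _ => rfl
  | n + 1, y, 0, v => by
    have h := (KC V (lof fun k => y k.succ)).d_pr_zero (y 0)
      (Phi (fun k => y k.succ) 1 (ra v)) (Phi (fun k => y k.succ) 0 (rb v))
    refine Eq.trans ?_ h.symm
    show Phi (fun k => y k.succ) 0 (ra (kzf y v)) = (_ : (KC V (lof fun k => y k.succ)).X 0)
    rw [ra_kzf, Phi_add, Phi_smul, Phi_kzf]
    rfl
  | n + 1, y, i + 1, v => by
    have h := (KC V (lof fun k => y k.succ)).d_pr_succ (y 0) i
      (Phi (fun k => y k.succ) (i + 2) (ra v)) (Phi (fun k => y k.succ) (i + 1) (rb v))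
    refine Eq.trans ?_ h.symm
    show (KC V (lof fun k => y k.succ)).pr (y 0) i (Phi (fun k => y k.succ) (i + 1) (ra (kzf y v)))
      (Phi (fun k => y k.succ) i (rb (kzf y v))) = _
    rw [ra_kzf, rb_kzf, Phi_add, Phi_smul, Phi_neg, Phi_kzf, Phi_kzf]

/-- homogeneous functions. -/
def Hg {n : ℕ} (i : ℕ) (v : Finset (Fin n) → V) : Prop := ∀ J, v J ≠ 0 → J.card = i

theorem Phi_surj : ∀ {n : ℕ} (y : Fin n → C) (i : ℕ) (x : (KC V (lof y)).X i),
    ∃ v : Finset (Fin n) → V, Hg i v ∧ Phi y i v = x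
  | 0, _, 0, x => ⟨fun _ => (x : V), fun J _ => by
      rw [Finset.eq_empty_of_isEmpty J, Finset.card_empty], rfl⟩
  | 0, _, _ + 1, _ => ⟨0, fun _ h => absurd rfl h, rfl⟩
  | n + 1, y, 0, x => by
    obtain ⟨v, hv, hx⟩ := Phi_surj (fun k => y k.succ) 0 x
    refine ⟨glue v 0, ?_, ?_⟩
    · intro J hJ
      rw [glue] at hJ
      by_cases h : 0 ∈ J
      · rw [if_pos h] at hJ
        exact absurd rfl hJ
      · rw [if_neg h] at hJ
        rw [← card_pre h]
        exact hv _ hJ
    · show Phi (fun k => y k.succ) 0 (ra (glue v 0)) = x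
      rw [ra_glue]
      exact hx
  | n + 1, y, i + 1, x => by
    obtain ⟨a, b, rfl⟩ := (KC V (lof fun k => y k.succ)).exists_pr (y 0) i x
    obtain ⟨va, hva, ha⟩ := Phi_surj (fun k => y k.succ) (i + 1) a
    obtain ⟨vb, hvb, hb⟩ := Phi_surj (fun k => y k.succ) i b
    refine ⟨glue va vb, ?_, ?_⟩
    · intro J hJ
      rw [glue] at hJ
      by_cases h : 0 ∈ J
      · rw [if_pos h] at hJ
        rw [← card_pre' h, hvb _ hJ]
      · rw [if_neg h] at hJ
        rw [← card_pre h]
        exact hva _ hJ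
    · show (KC V (lof fun k => y k.succ)).pr (y 0) i (Phi (fun k => y k.succ) (i + 1)
        (ra (glue va vb))) (Phi (fun k => y k.succ) i (rb (glue va vb))) = _
      rw [ra_glue, rb_glue, ha, hb]

theorem Hg.ra {n : ℕ} {i : ℕ} {v : Finset (Fin (n + 1)) → V} (hv : Hg i v) : Hg i (ra v) := by
  intro J hJ
  rw [← Finset.card_map (Fin.succEmb n)]
  exact hv _ hJ

theorem Hg.rb {n : ℕ} {i : ℕ} {v : Finset (Fin (n + 1)) → V} (hv : Hg (i + 1) v) :
    Hg i (rb v) := by
  intro J hJ
  have h := hv _ hJ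
  rw [Finset.card_insert_of_notMem (zero_notMem_map _), Finset.card_map] at h
  exact Nat.succ_injective h

theorem Hg.rb_zero {n : ℕ} {v : Finset (Fin (n + 1)) → V} (hv : Hg 0 v) : KG.rb v = 0 := by
  funext J
  by_contra h
  have h1 := hv _ h
  rw [Finset.card_insert_of_notMem (zero_notMem_map _)] at h1
  exact absurd h1 (Nat.succ_ne_zero _)

theorem Phi_inj : ∀ {n : ℕ} (y : Fin n → C) (i : ℕ) (v : Finset (Fin n) → V), Hg i v →
    Phi y i v = 0 → v = 0
  | 0, _, 0, v, _, h => by
    funext J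
    rw [Finset.eq_empty_of_isEmpty J]
    exact h
  | 0, _, i + 1, v, hv, _ => by
    funext J
    by_contra h
    have h1 := hv J h
    rw [Finset.eq_empty_of_isEmpty J, Finset.card_empty] at h1
    exact absurd h1.symm (Nat.succ_ne_zero _)
  | n + 1, y, 0, v, hv, h => by
    have h1 := Phi_inj (fun k => y k.succ) 0 (ra v) hv.ra h
    rw [← glue_ra_rb v, h1, hv.rb_zero]
    funext J
    simp [glue]
  | n + 1, y, i + 1, v, hv, h => by
    have h' : (KC V (lof fun k => y k.succ)).pr (y 0) i (Phi (fun k => y k.succ) (i + 1) (ra v))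
      (Phi (fun k => y k.succ) i (rb v)) = 0 := h
    obtain ⟨ha, hb⟩ := (KC V (lof fun k => y k.succ)).pr_eq_zero.1 h'
    have h1 := Phi_inj (fun k => y k.succ) (i + 1) (ra v) hv.ra ha
    have h2 := Phi_inj (fun k => y k.succ) i (rb v) hv.rb hb
    rw [← glue_ra_rb v, h1, h2]
    funext J
    simp [glue]

end Main

section Final

variable {R C : Type u} [CommRing R] [CommRing C] [Algebra R C] {V : Type u} [AddCommGroup V]
  [Module R V] [Module C V] [IsScalarTower R C V] {n : ℕ}

omit [Algebra R C] [IsScalarTower R C V] in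
theorem kz_eq_kzf {T : Fin n → V →ₗ[R] V} {y : Fin n → C} (hT : ∀ l v, T l v = y l • v)
    (v : Finset (Fin n) → V) : kz T v = kzf y v := by
  funext J
  show ∑ l ∈ Jᶜ, ksg l J • T l (v (insert l J)) = _
  rw [kzf]
  exact Finset.sum_congr rfl fun l _ => by rw [hT]

theorem mem_kgr_iff {i : ℕ} {v : Finset (Fin n) → V} : v ∈ kgr R V n (i : ℤ) ↔ Hg i v := by
  constructor
  · intro h J hJ
    exact_mod_cast h J hJ
  · intro h J hJ
    exact_mod_cast h J hJ

omit [Algebra R C] [IsScalarTower R C V] in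
theorem Phi_mem_Z {T : Fin n → V →ₗ[R] V} {y : Fin n → C} (hT : ∀ l v, T l v = y l • v) :
    ∀ (i : ℕ) (v : Finset (Fin n) → V), v ∈ kcyc T (i : ℤ) → Phi y i v ∈ (KC V (lof y)).Z i
  | 0, v, _ => Cx.mem_Z_zero _ _
  | i + 1, v, hv => by
    rw [Cx.mem_Z_succ, ← Phi_kzf, ← kz_eq_kzf hT]
    have h : kz T v = 0 := hv.2
    rw [h]
    have := Phi_smul (0 : C) y i (0 : Finset (Fin n) → V)
    rwa [zero_smul, zero_smul] at this

/-- the comparison map on cycles. -/
noncomputable def PhiH {T : Fin n → V →ₗ[R] V} {y : Fin n → C} (hT : ∀ l v, T l v = y l • v)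
    (i : ℕ) : ↥(kcyc T (i : ℤ)) →ₗ[R] Rs R C ((KC V (lof y)).H i) where
  toFun v := (KC V (lof y)).cl i ⟨Phi y i v.1, Phi_mem_Z hT i v.1 v.2⟩
  map_add' v w := by
    have h : (⟨Phi y i (v.1 + w.1), Phi_mem_Z hT i (v.1 + w.1) (v + w).2⟩ :
        ↥((KC V (lof y)).Z i)) = ⟨Phi y i v.1, Phi_mem_Z hT i v.1 v.2⟩ +
          ⟨Phi y i w.1, Phi_mem_Z hT i w.1 w.2⟩ := Subtype.ext (Phi_add y i v.1 w.1)
    show (KC V (lof y)).cl i ⟨Phi y i (v.1 + w.1), Phi_mem_Z hT i (v.1 + w.1) (v + w).2⟩ = _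
    rw [h, map_add]
    rfl
  map_smul' r v := by
    have h0 : (r • v).1 = (algebraMap R C r) • v.1 := by
      funext J
      show r • v.1 J = (algebraMap R C r) • v.1 J
      rw [algebraMap_smul]
    have h : (⟨Phi y i (r • v).1, Phi_mem_Z hT i (r • v).1 (r • v).2⟩ :
        ↥((KC V (lof y)).Z i)) = (algebraMap R C r) •
          ⟨Phi y i v.1, Phi_mem_Z hT i v.1 v.2⟩ := by
      refine Subtype.ext ?_
      show Phi y i (r • v).1 = (algebraMap R C r) • Phi y i v.1
      rw [h0, Phi_smul]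
    show (KC V (lof y)).cl i ⟨Phi y i (r • v).1, Phi_mem_Z hT i (r • v).1 (r • v).2⟩ = _
    rw [h, map_smul]
    rfl

theorem PhiH_surjective {T : Fin n → V →ₗ[R] V} {y : Fin n → C}
    (hT : ∀ l v, T l v = y l • v) (i : ℕ) : Function.Surjective (PhiH hT i) := by
  intro z
  obtain ⟨x, hx, hz⟩ := (KC V (lof y)).cl_surj i z
  obtain ⟨v, hv, hvx⟩ := Phi_surj y i x
  have hc : v ∈ kcyc T (i : ℤ) := by
    refine ⟨mem_kgr_iff.2 hv, ?_⟩
    show kz T v = 0
    cases i with
    | zero =>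
      have h1 := kz_kgr T (-1) v (by
        have := (mem_kgr_iff (R := R)).2 hv
        simpa using this)
      funext J
      by_contra h
      have h2 := h1 J h
      omega
    | succ i =>
      have h1 := kz_kgr T (i : ℤ) v (by
        have := (mem_kgr_iff (R := R)).2 hv
        simpa using this)
      refine Phi_inj y i _ (mem_kgr_iff.1 h1) ?_
      rw [kz_eq_kzf hT, Phi_kzf, hvx]
      exact hx
  refine ⟨⟨v, hc⟩, ?_⟩
  rw [← hz]
  show (KC V (lof y)).cl i ⟨Phi y i v, _⟩ = _
  congr 1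
  exact Subtype.ext hvx

theorem ker_PhiH {T : Fin n → V →ₗ[R] V} {y : Fin n → C} (hT : ∀ l v, T l v = y l • v)
    (i : ℕ) : LinearMap.ker (PhiH hT i) = (kbd T (i : ℤ)).submoduleOf (kcyc T (i : ℤ)) := by
  ext ⟨v, hv⟩
  rw [LinearMap.mem_ker]
  show (KC V (lof y)).cl i ⟨Phi y i v, _⟩ = 0 ↔ v ∈ kbd T (i : ℤ)
  rw [Cx.cl_eq_zero, Cx.mem_B]
  constructor
  · rintro ⟨x, hx⟩
    obtain ⟨w, hw, rfl⟩ := Phi_surj y (i + 1) x
    have hw1 : w ∈ kgr R V n ((i : ℤ) + 1) := by
      have := (mem_kgr_iff (R := R)).2 hw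
      simpa using this
    refine ⟨w, hw1, ?_⟩
    have h1 : kz T w ∈ kgr R V n (i : ℤ) := kz_kgr T (i : ℤ) w hw1
    have h2 : v - kz T w ∈ kgr R V n (i : ℤ) := Submodule.sub_mem _ hv.1 h1
    have h3 : Phi y i (v - kz T w) = 0 := by
      rw [sub_eq_add_neg, Phi_add, Phi_neg, kz_eq_kzf hT, Phi_kzf, hx, add_neg_cancel]
    exact (sub_eq_zero.1 (Phi_inj y i _ (mem_kgr_iff.1 h2) h3)).symm
  · rintro ⟨w, hw, rfl⟩
    exact ⟨Phi y (i + 1) w, by rw [kz_eq_kzf hT, Phi_kzf]⟩

/-- **comparison**: the `kz` Koszul homology of P202 and `KC` have the same length. -/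
theorem len_KH_eq (L : ALen R) (T : Fin n → V →ₗ[R] V) (y : Fin n → C)
    (hT : ∀ l v, T l v = y l • v) (i : ℕ) :
    L.len (KM.KH T i) = (L.res C).len ((KC V (List.ofFn y)).H i) := by
  rw [← lof_eq]
  have h1 := len_congr L ((PhiH hT i).quotKerEquivOfSurjective (PhiH_surjective hT i))
  have h2 : L.len (Rs R C ((KC V (lof y)).H i)) =
      (L.res C).len ((KC V (lof y)).H i) := rfl
  rw [← h2, ← h1, ker_PhiH]

/-- finiteness for `ys` gives finiteness for every list `cs` with `ys ^ l` in the ideal of `cs`. -/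
theorem KC_len_lt_top (L : ALen C) {cs ys : List C} {l : ℕ}
    (h : ∀ y ∈ ys, y ^ l ∈ Ideal.ofList cs) (hf : ∀ q, L.len ((KC V ys).H q) < ⊤) (i : ℕ) :
    L.len ((KC V cs).H i) < ⊤ := by
  have h1 : ∀ y ∈ ys.map (· ^ l), y ∈ Ideal.ofList cs := by
    intro y' hy'
    obtain ⟨y, hy, rfl⟩ := List.mem_map.1 hy'
    exact h y hy
  refine lt_of_le_of_lt ((kfam V).growth1' L h1 i) ?_
  refine ENNReal.sum_lt_top.2 fun jq _ => ENNReal.mul_lt_top (ENNReal.natCast_lt_top _) ?_
  refine lt_of_le_of_lt ((kfam V).growth2 L ys l jq.2) ?_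
  exact ENNReal.mul_lt_top (ENNReal.pow_lt_top (ENNReal.natCast_lt_top _)) (hf _)

theorem mem_ofList_ofFn {y : Fin n → C} {x : C} :
    x ∈ Ideal.ofList (List.ofFn y) ↔ x ∈ Ideal.span (Set.range y) := by
  rw [Ideal.ofList]
  have h : {r : C | r ∈ List.ofFn y} = Set.range y := by
    ext r
    simp [List.mem_ofFn]
  rw [h]

/-- **growth for `kz` homology** (constant form): `len H_i(c ^ t; V) ≤ const * B * (t + 1) ^ n`
if `y_j ^ l` is in the ideal of `c` and `len H_q(y; V) ≤ B` for all `q`. -/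
theorem len_KH_growth (L : ALen R) {m : ℕ} {T : Fin n → V →ₗ[R] V} {y : Fin n → C}
    (hT : ∀ l v, T l v = y l • v) {c : Fin m → C} {l : ℕ}
    (h : ∀ j, y j ^ l ∈ Ideal.span (Set.range c)) {B : ℝ≥0∞}
    (hB : ∀ q, L.len (KM.KH T q) ≤ B) (t i : ℕ) {T' : Fin m → V →ₗ[R] V}
    (hT' : ∀ k v, T' k v = (c k ^ t) • v) :
    L.len (KM.KH T' i) ≤ ((l * (m + 1)) ^ n * 2 ^ m : ℕ) * B * ((t + 1 : ℕ) : ℝ≥0∞) ^ n := by
  rw [len_KH_eq L T' (fun k => c k ^ t) hT' i]
  have e : List.ofFn (fun k => c k ^ t) = (List.ofFn c).map (· ^ t) := by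
    rw [List.map_ofFn]
    rfl
  rw [e]
  have h1 : ∀ x ∈ List.ofFn y, x ^ l ∈ Ideal.ofList (List.ofFn c) := by
    intro x hx
    obtain ⟨j, rfl⟩ := List.mem_ofFn.1 hx
    exact mem_ofList_ofFn.2 (h j)
  have h2 : ∀ q, (L.res C).len ((KC V (List.ofFn y)).H q) ≤ B := by
    intro q
    rw [← len_KH_eq L T y hT q]
    exact hB q
  have h3 := KC_growth3_const (L.res C) V h1 h2 t i
  simpa only [List.length_ofFn] using h3

/-- **finiteness for `kz` homology**. -/
theorem len_KH_lt_top (L : ALen R) {m : ℕ} {T : Fin n → V →ₗ[R] V} {y : Fin n → C}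
    (hT : ∀ l v, T l v = y l • v) {c : Fin m → C} {l : ℕ}
    (h : ∀ j, y j ^ l ∈ Ideal.span (Set.range c))
    (hf : ∀ q, L.len (KM.KH T q) < ⊤) (i : ℕ) {T' : Fin m → V →ₗ[R] V}
    (hT' : ∀ k v, T' k v = c k • v) : L.len (KM.KH T' i) < ⊤ := by
  rw [len_KH_eq L T' c hT' i]
  have h1 : ∀ x ∈ List.ofFn y, x ^ l ∈ Ideal.ofList (List.ofFn c) := by
    intro x hx
    obtain ⟨j, rfl⟩ := List.mem_ofFn.1 hx
    exact mem_ofList_ofFn.2 (h j)
  refine KC_len_lt_top (L.res C) h1 ?_ i
  intro q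
  rw [← len_KH_eq L T y hT q]
  exact hf q

end Final

end Vale.Agent.P177.KG
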