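import Vale.Agent.P177.Perf.KLes
import Vale.Agent.P177.Perf.KzComp
import Vale.Agent.P177.TorShift

/-!
P177: `Tor_i(X, A/(xs)) ≃ H_i(xs; X)` for `xs` weakly regular on the ring `A`.
-/

namespace Vale.Agent.P177.KG

open RingTheory.Sequence TensorProduct Pointwise

universe u

section Zero

variable {R : Type u} [CommRing R] (M : Type u) [AddCommGroup M] [Module R M]

/-- the identification of `M` with the degree zero part. -/
def e0 : ∀ xs : List R, M ≃ₗ[R] (KC M xs).X 0
  | [] => (LinearEquiv.refl R M : M ≃ₗ[R] M)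
  | _ :: xs => e0 xs

theorem e0_mem_B (xs : List R) : ∀ m : M,
    e0 M xs m ∈ (KC M xs).B 0 ↔ m ∈ (Ideal.ofList xs • (⊤ : Submodule R M)) := by
  induction xs with
  | nil =>
    intro m
    rw [Ideal.ofList_nil, Submodule.bot_smul, Submodule.mem_bot]
    constructor
    · rintro ⟨y, hy⟩
      exact hy.symm
    · rintro rfl
      rw [map_zero]
      exact Submodule.zero_mem _
  | cons x xs ih =>
    intro m
    rw [Ideal.ofList_cons, Submodule.sup_smul, Submodule.mem_sup]
    have h1 : e0 M (x :: xs) m = (KC M xs).p0 x (e0 M xs m) := rfl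
    rw [h1]
    refine (KC M xs).mem_B_cone_zero.trans ?_
    constructor
    · rintro ⟨a, b, hab⟩
      obtain ⟨m', rfl⟩ := (e0 M xs).surjective b
      have h2 : e0 M xs (m - x • m') ∈ (KC M xs).B 0 := by
        rw [map_sub, map_smul, ← hab, add_sub_cancel_right]
        exact ⟨a, rfl⟩
      refine ⟨x • m', ?_, m - x • m', (ih _).1 h2, add_sub_cancel _ _⟩
      exact Submodule.smul_mem_smul (Ideal.mem_span_singleton_self x) trivial
    · rintro ⟨u, hu, v, hv, rfl⟩
      rw [Submodule.ideal_span_singleton_smul] at hu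
      obtain ⟨m', -, rfl⟩ := hu
      obtain ⟨a, ha⟩ := (ih v).2 hv
      refine ⟨a, e0 M xs m', ?_⟩
      rw [ha, map_add, add_comm, ← map_smul]
      rfl

theorem e0_nat {N : Type u} [AddCommGroup N] [Module R N] (f : M →ₗ[R] N) (xs : List R) :
    ∀ m : M, (KCmap f xs).f 0 (e0 M xs m) = e0 N xs (f m) := by
  induction xs with
  | nil => exact fun m => rfl
  | cons x xs ih => exact fun m => ih m

/-- the surjection `M → H_0(xs; M)`. -/
def u0 (xs : List R) : M →ₗ[R] (KC M xs).H 0 :=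
  (KC M xs).cl 0 ∘ₗ (e0 M xs).toLinearMap.codRestrict ((KC M xs).Z 0) (fun _ => Cx.mem_Z_zero _ _)

theorem u0_surjective (xs : List R) : Function.Surjective (u0 M xs) := by
  intro z
  obtain ⟨x, hx, rfl⟩ := (KC M xs).cl_surj 0 z
  obtain ⟨m, rfl⟩ := (e0 M xs).surjective x
  exact ⟨m, rfl⟩

theorem ker_u0 (xs : List R) : LinearMap.ker (u0 M xs) = Ideal.ofList xs • (⊤ : Submodule R M) := by
  ext m
  rw [LinearMap.mem_ker, ← e0_mem_B]
  exact (KC M xs).cl_eq_zero

theorem u0_nat {N : Type u} [AddCommGroup N] [Module R N] (f : M →ₗ[R] N) (xs : List R) (m : M) :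
    (KCmap f xs).H 0 (u0 M xs m) = u0 N xs (f m) := by
  have h : u0 M xs m = (KC M xs).cl 0 ⟨e0 M xs m, Cx.mem_Z_zero _ _⟩ := rfl
  have h' : u0 N xs (f m) = (KC N xs).cl 0 ⟨e0 N xs (f m), Cx.mem_Z_zero _ _⟩ := rfl
  rw [h, h', Cx.Hom.H_cl, Cx.cl_eq_cl, e0_nat, sub_self]
  exact Submodule.zero_mem _

/-- `H_0(xs; M) ≃ M ⊗ R/(xs)`. -/
noncomputable def E0 (xs : List R) : (KC M xs).H 0 ≃ₗ[R] M ⊗[R] (R ⧸ Ideal.ofList xs) :=
  ((u0 M xs).quotKerEquivOfSurjective (u0_surjective M xs)).symm.trans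
    ((Submodule.quotEquivOfEq _ _ (ker_u0 M xs)).trans
      (tensorQuotEquivQuotSMul M (Ideal.ofList xs)).symm)

theorem E0_u0 (xs : List R) (m : M) :
    E0 M xs (u0 M xs m) = m ⊗ₜ[R] (1 : R ⧸ Ideal.ofList xs) := by
  have h1 : ((u0 M xs).quotKerEquivOfSurjective (u0_surjective M xs)).symm (u0 M xs m) =
      (LinearMap.ker (u0 M xs)).mkQ m := by
    rw [LinearEquiv.symm_apply_eq]
    rfl
  rw [E0, LinearEquiv.trans_apply, LinearEquiv.trans_apply, h1, LinearEquiv.symm_apply_eq]
  have h2 := tensorQuotEquivQuotSMul_tmul_mk (M := M) (Ideal.ofList xs) m (1 : R)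
  rw [one_smul] at h2
  exact h2.symm

theorem E0_nat {N : Type u} [AddCommGroup N] [Module R N] (f : M →ₗ[R] N) (xs : List R)
    (z : (KC M xs).H 0) :
    E0 N xs ((KCmap f xs).H 0 z) = f.rTensor (R ⧸ Ideal.ofList xs) (E0 M xs z) := by
  obtain ⟨m, rfl⟩ := u0_surjective M xs z
  rw [u0_nat, E0_u0, E0_u0, LinearMap.rTensor_tmul]

end Zero

section Van

variable {R : Type u} [CommRing R]

/-- Koszul homology of a weakly regular sequence vanishes in positive degrees. -/
theorem KC_H_succ_subsingleton (xs : List R) : ∀ (M : Type u) [AddCommGroup M] [Module R M],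
    IsWeaklyRegular M xs → ∀ i, Subsingleton ((KC M xs).H (i + 1)) := by
  induction xs with
  | nil =>
    intro M _ _ _ i
    exact KC_H_subsingleton M [] (Nat.succ_pos i)
  | cons x xs ih =>
    intro M _ _ h i
    rw [isWeaklyRegular_cons_iff] at h
    have h1 := ih (QuotSMulTop x M) h.2 i
    have e := KC_cons_equiv (M := M) (K := QuotSMulTop x M) x
      (fun m hm => h.1 (show x • m = x • (0 : M) by rw [smul_zero]; exact hm))
      (Submodule.mkQ (x • (⊤ : Submodule R M))) (Submodule.mkQ_surjective _)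
      (fun m => by
        rw [Submodule.mkQ_apply, Submodule.Quotient.mk_eq_zero]
        constructor
        · rintro ⟨m', -, h'⟩
          exact ⟨m', h'⟩
        · rintro ⟨m', h'⟩
          exact ⟨m', trivial, h'⟩) xs (i + 1)
    exact e.toEquiv.subsingleton

theorem isWeaklyRegular_of_flat {xs : List R} (h : IsWeaklyRegular R xs) (F : Type u)
    [AddCommGroup F] [Module R F] [Module.Flat R F] : IsWeaklyRegular F xs :=
  ((TensorProduct.rid R F).isWeaklyRegular_congr xs).1 h.isWeaklyRegular_lTensor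

end Van

section Tor

variable {R : Type u} [CommRing R]

theorem tor_equiv_zero (xs : List R) (M : Type u) [AddCommGroup M] [Module R M] :
    Nonempty (TorM R 0 M (R ⧸ Ideal.ofList xs) ≃ₗ[R] (KC M xs).H 0) :=
  ⟨(torZero M (R ⧸ Ideal.ofList xs)).trans (E0 M xs).symm⟩

theorem delta_bijective {xs : List R} {K F M : Type u} [AddCommGroup K] [Module R K]
    [AddCommGroup F] [Module R F] [AddCommGroup M] [Module R M] {f : K →ₗ[R] F} {g : F →ₗ[R] M}
    (hf : Function.Injective f) (hg : Function.Surjective g) (hfg : Function.Exact f g) (i : ℕ)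
    (h1 : Subsingleton ((KC F xs).H (i + 1))) (h0 : Subsingleton ((KC F xs).H i)) :
    Function.Bijective ((KCses hf hg hfg xs).delta i) := by
  constructor
  · rw [injective_iff_map_eq_zero]
    intro z hz
    obtain ⟨w, rfl⟩ := ((KCses hf hg hfg xs).exact₃ i z).1 hz
    rw [Subsingleton.elim w 0, map_zero]
  · intro z
    exact ((KCses hf hg hfg xs).exact₁ i z).1 (Subsingleton.elim _ _)

/-- **Tor and Koszul homology**: for `xs` weakly regular on `R`,
`Tor_i(M, R/(xs)) ≃ H_i(xs; M)`. -/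
theorem tor_equiv {xs : List R} (hreg : IsWeaklyRegular R xs) : ∀ (i : ℕ) (M : Type u)
    [AddCommGroup M] [Module R M],
    Nonempty (TorM R i M (R ⧸ Ideal.ofList xs) ≃ₗ[R] (KC M xs).H i)
  | 0, M, _, _ => tor_equiv_zero xs M
  | 1, M, _, _ => by
    obtain ⟨F, K, _, _, _, _, f, g, hF, hf, hg, hfg⟩ := exists_cover R M
    obtain ⟨e1⟩ := tor_one f g hf hg hfg (R ⧸ Ideal.ofList xs)
    have hv := KC_H_succ_subsingleton xs F (isWeaklyRegular_of_flat hreg F) 0
    have h := KCses hf hg hfg xs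
    have hinj : Function.Injective (h.delta 0) := by
      rw [injective_iff_map_eq_zero]
      intro z hz
      obtain ⟨w, rfl⟩ := (h.exact₃ 0 z).1 hz
      rw [Subsingleton.elim w 0, map_zero]
    have hr : LinearMap.range (h.delta 0) = LinearMap.ker ((KCmap f xs).H 0) :=
      (LinearMap.exact_iff.1 (h.exact₁ 0)).symm
    have e2 : (KC M xs).H 1 ≃ₗ[R] LinearMap.ker ((KCmap f xs).H 0) :=
      (LinearEquiv.ofInjective (h.delta 0) hinj).trans (LinearEquiv.ofEq _ _ hr)
    have hk : (LinearMap.ker ((KCmap f xs).H 0)).map (E0 K xs).toLinearMap =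
        LinearMap.ker (f.rTensor (R ⧸ Ideal.ofList xs)) := by
      ext z
      constructor
      · rintro ⟨w, hw, rfl⟩
        rw [LinearMap.mem_ker]
        have h3 := E0_nat K f xs w
        have h4 : (KCmap f xs).H 0 w = 0 := hw
        rw [h4, map_zero] at h3
        exact h3.symm
      · intro hz
        refine ⟨(E0 K xs).symm z, ?_, (E0 K xs).apply_symm_apply z⟩
        show (KCmap f xs).H 0 ((E0 K xs).symm z) = 0
        apply (E0 F xs).injective
        rw [E0_nat K f xs, LinearEquiv.apply_symm_apply, map_zero]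
        exact hz
    have e3 : LinearMap.ker ((KCmap f xs).H 0) ≃ₗ[R]
        LinearMap.ker (f.rTensor (R ⧸ Ideal.ofList xs)) :=
      ((E0 K xs).submoduleMap (LinearMap.ker ((KCmap f xs).H 0))).trans (LinearEquiv.ofEq _ _ hk)
    exact ⟨e1.trans (e2.trans e3).symm⟩
  | i + 2, M, _, _ => by
    obtain ⟨F, K, _, _, _, _, f, g, hF, hf, hg, hfg⟩ := exists_cover R M
    obtain ⟨e1⟩ := tor_shift f g hf hg hfg (R ⧸ Ideal.ofList xs) i
    obtain ⟨e2⟩ := tor_equiv hreg (i + 1) K
    have hv := KC_H_succ_subsingleton xs F (isWeaklyRegular_of_flat hreg F)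
    have e3 := LinearEquiv.ofBijective _
      (delta_bijective (xs := xs) hf hg hfg (i + 1) (hv (i + 1)) (hv i))
    exact ⟨(e1.trans e2).trans e3.symm⟩

/-- lengths. -/
theorem len_tor_eq (L : ALen R) {xs : List R} (hreg : IsWeaklyRegular R xs) (i : ℕ) (M : Type u)
    [AddCommGroup M] [Module R M] :
    L.len (TorM R i M (R ⧸ Ideal.ofList xs)) = L.len ((KC M xs).H i) := by
  obtain ⟨e⟩ := tor_equiv hreg i M
  exact len_congr L e

end Tor

section Flat

variable {A D : Type u} [CommRing A] [CommRing D] [Algebra A D] [Module.Flat A D]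

/-- **flat version**: `xs` weakly regular on `A`, `D` flat over `A`, `M` a `D`-module. -/
theorem tor_equiv_flat {xs : List A} (hreg : IsWeaklyRegular A xs) (i : ℕ) (M : Type u)
    [AddCommGroup M] [Module D M] :
    Nonempty (TorM D i M (D ⊗[A] (A ⧸ Ideal.ofList xs)) ≃ₗ[D]
      (KC M (xs.map (algebraMap A D))).H i) := by
  obtain ⟨e⟩ := tor_equiv (IsWeaklyRegular.of_flat (S := D) hreg) i M
  have h : (Ideal.ofList xs).map (algebraMap A D) = Ideal.ofList (xs.map (algebraMap A D)) :=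
    Ideal.map_ofList _ _
  let e1 : (D ⊗[A] (A ⧸ Ideal.ofList xs)) ≃ₗ[D] (D ⧸ Ideal.ofList (xs.map (algebraMap A D))) :=
    ((Algebra.TensorProduct.quotIdealMapEquivTensorQuot D
      (Ideal.ofList xs)).toLinearEquiv.symm).trans (Submodule.quotEquivOfEq _ _ h)
  exact ⟨(torCongrRight i M e1).trans e⟩

theorem len_tor_flat_eq (L : ALen D) {xs : List A} (hreg : IsWeaklyRegular A xs) (i : ℕ)
    (M : Type u) [AddCommGroup M] [Module D M] :
    L.len (TorM D i M (D ⊗[A] (A ⧸ Ideal.ofList xs))) =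
      L.len ((KC M (xs.map (algebraMap A D))).H i) := by
  obtain ⟨e⟩ := tor_equiv_flat (D := D) hreg i M
  exact len_congr L e

/-- **finiteness of Tor from Koszul finiteness**: `xs` weakly regular on `A`, `D` flat over `A`,
`ys` elements of `D` with `ys ^ l` in the ideal of `xs` and finite Koszul homology on `M`. -/
theorem len_tor_flat_lt_top (L : ALen D) {xs : List A} (hreg : IsWeaklyRegular A xs) (M : Type u)
    [AddCommGroup M] [Module D M] {ys : List D} {l : ℕ}
    (h : ∀ y ∈ ys, y ^ l ∈ Ideal.ofList (xs.map (algebraMap A D)))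
    (hf : ∀ q, L.len ((KC (R := D) M ys).H q) < ⊤) (i : ℕ) :
    L.len (TorM D i M (D ⊗[A] (A ⧸ Ideal.ofList xs))) < ⊤ := by
  rw [len_tor_flat_eq L hreg i M]
  exact KC_len_lt_top L h hf i

end Flat

/-! ### change of the base ring of a Koszul complex -/

section Change

variable {C D : Type u} [CommRing C] [CommRing D] [Algebra C D] {M : Type u} [AddCommGroup M]
  [Module C M] [Module D M] [IsScalarTower C D M]

/-- the Koszul complex over `C` and the one over `D` have the same terms. -/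
def cX : ∀ (xs : List C) (i : ℕ), (KC (R := C) M xs).X i → (KC (R := D) M
    (xs.map (algebraMap C D))).X i
  | [], 0, m => (m : M)
  | [], _ + 1, _ => PUnit.unit
  | _ :: xs, 0, m => cX xs 0 m
  | x :: xs, i + 1, m => (KC (R := D) M (xs.map (algebraMap C D))).pr (algebraMap C D x) i
      (cX xs (i + 1) m.1) (cX xs i m.2)

omit [IsScalarTower C D M] in
theorem cX_add : ∀ (xs : List C) (i : ℕ) (m m' : (KC (R := C) M xs).X i),
    cX (D := D) xs i (m + m') = cX xs i m + cX xs i m'
  | [], 0, _, _ => rfl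
  | [], _ + 1, _, _ => rfl
  | _ :: xs, 0, m, m' => cX_add xs 0 m m'
  | x :: xs, i + 1, m, m' => by
    have h1 := cX_add xs (i + 1) m.1 m'.1
    have h2 := cX_add xs i m.2 m'.2
    show (KC (R := D) M (xs.map (algebraMap C D))).pr (algebraMap C D x) i
      (cX xs (i + 1) (m.1 + m'.1)) (cX xs i (m.2 + m'.2)) = _
    rw [h1, h2]
    rfl

theorem cX_smul (c : C) : ∀ (xs : List C) (i : ℕ) (m : (KC (R := C) M xs).X i),
    cX (D := D) xs i (c • m) = algebraMap C D c • cX xs i m
  | [], 0, m => (algebraMap_smul D c (show M from m)).symm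
  | [], _ + 1, _ => rfl
  | _ :: xs, 0, m => cX_smul c xs 0 m
  | x :: xs, i + 1, m => by
    have h1 := cX_smul c xs (i + 1) m.1
    have h2 := cX_smul c xs i m.2
    show (KC (R := D) M (xs.map (algebraMap C D))).pr (algebraMap C D x) i
      (cX xs (i + 1) (c • m.1)) (cX xs i (c • m.2)) = _
    rw [h1, h2]
    rfl

omit [IsScalarTower C D M] in
theorem cX_bij : ∀ (xs : List C) (i : ℕ), Function.Bijective (cX (D := D) (M := M) xs i)
  | [], 0 => Function.bijective_id (α := M)
  | [], _ + 1 => ⟨fun _ _ _ => rfl, fun _ => ⟨PUnit.unit, rfl⟩⟩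
  | _ :: xs, 0 => cX_bij xs 0
  | x :: xs, i + 1 => by
    have h1 := cX_bij xs (i + 1)
    have h2 := cX_bij xs i
    constructor
    · intro m m' h
      obtain ⟨ha, hb⟩ := (KC (R := D) M (xs.map (algebraMap C D))).pr_inj.1 h
      exact Prod.ext (h1.1 ha) (h2.1 hb)
    · intro z
      obtain ⟨a, b, rfl⟩ := (KC (R := D) M (xs.map (algebraMap C D))).exists_pr _ i z
      obtain ⟨a', rfl⟩ := h1.2 a
      obtain ⟨b', rfl⟩ := h2.2 b
      exact ⟨((a', b') : (KC (R := C) M xs).X (i + 1) × (KC (R := C) M xs).X i), rfl⟩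

theorem cX_zero (xs : List C) (i : ℕ) : cX (D := D) (M := M) xs i 0 = 0 := by
  have h := cX_smul (D := D) (M := M) 0 xs i 0
  rwa [zero_smul, map_zero, zero_smul] at h

theorem cX_neg (xs : List C) (i : ℕ) (m : (KC (R := C) M xs).X i) :
    cX (D := D) xs i (-m) = - cX xs i m := by
  have h := cX_smul (D := D) (-1) xs i m
  rwa [neg_one_smul, map_neg, map_one, neg_one_smul] at h

theorem cX_d : ∀ (xs : List C) (i : ℕ) (m : (KC (R := C) M xs).X (i + 1)),
    cX (D := D) xs i ((KC (R := C) M xs).d i m) =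
      (KC (R := D) M (xs.map (algebraMap C D))).d i (cX xs (i + 1) m)
  | [], 0, _ => rfl
  | [], _ + 1, _ => rfl
  | x :: xs, 0, m => by
    obtain ⟨a, b, rfl⟩ := (KC (R := C) M xs).exists_pr x 0 m
    have h := (KC (R := D) M (xs.map (algebraMap C D))).d_pr_zero (algebraMap C D x)
      (cX xs 1 a) (cX xs 0 b)
    refine Eq.trans ?_ h.symm
    show cX xs 0 ((KC (R := C) M xs).d 0 a + x • b) =
      (_ : (KC (R := D) M (xs.map (algebraMap C D))).X 0)
    rw [cX_add, cX_smul, cX_d]
    rfl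
  | x :: xs, i + 1, m => by
    obtain ⟨a, b, rfl⟩ := (KC (R := C) M xs).exists_pr x (i + 1) m
    have h := (KC (R := D) M (xs.map (algebraMap C D))).d_pr_succ (algebraMap C D x) i
      (cX xs (i + 2) a) (cX xs (i + 1) b)
    refine Eq.trans ?_ h.symm
    show (KC (R := D) M (xs.map (algebraMap C D))).pr (algebraMap C D x) i
      (cX xs (i + 1) ((KC (R := C) M xs).d (i + 1) a + x • b))
      (cX xs i (-(KC (R := C) M xs).d i b)) = _
    rw [cX_add, cX_smul, cX_neg, cX_d, cX_d]

theorem cX_mem_Z (xs : List C) (i : ℕ) (m : (KC (R := C) M xs).X i) :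
    m ∈ (KC (R := C) M xs).Z i ↔ cX (D := D) xs i m ∈
      (KC (R := D) M (xs.map (algebraMap C D))).Z i := by
  cases i with
  | zero => exact ⟨fun _ => Cx.mem_Z_zero _ _, fun _ => Cx.mem_Z_zero _ _⟩
  | succ i =>
    rw [Cx.mem_Z_succ, Cx.mem_Z_succ, ← cX_d]
    constructor
    · intro h
      rw [h, cX_zero]
    · intro h
      exact (cX_bij xs i).1 (by rw [h, cX_zero])

theorem cX_mem_B (xs : List C) (i : ℕ) (m : (KC (R := C) M xs).X i) :
    m ∈ (KC (R := C) M xs).B i ↔ cX (D := D) xs i m ∈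
      (KC (R := D) M (xs.map (algebraMap C D))).B i := by
  constructor
  · rintro ⟨z, rfl⟩
    exact ⟨cX xs (i + 1) z, (cX_d xs i z).symm⟩
  · rintro ⟨z, hz⟩
    obtain ⟨w, rfl⟩ := (cX_bij xs (i + 1)).2 z
    exact ⟨w, (cX_bij (D := D) xs i).1 (by rw [cX_d, hz])⟩

/-- the comparison of the Koszul homology over `C` and over `D`. -/
noncomputable def cH (xs : List C) (i : ℕ) : (KC (R := C) M xs).H i ≃ₗ[C]
    Rs C D ((KC (R := D) M (xs.map (algebraMap C D))).H i) := by
  let u : ↥((KC (R := C) M xs).Z i) →ₗ[C]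
      Rs C D ((KC (R := D) M (xs.map (algebraMap C D))).H i) :=
    { toFun := fun z => (KC (R := D) M (xs.map (algebraMap C D))).cl i
        ⟨cX xs i z.1, (cX_mem_Z xs i z.1).1 z.2⟩
      map_add' := fun z w => by
        have h : (⟨cX xs i (z.1 + w.1), (cX_mem_Z xs i (z.1 + w.1)).1 (z + w).2⟩ :
            ↥((KC (R := D) M (xs.map (algebraMap C D))).Z i)) =
            ⟨cX xs i z.1, (cX_mem_Z xs i z.1).1 z.2⟩ +
            ⟨cX xs i w.1, (cX_mem_Z xs i w.1).1 w.2⟩ := Subtype.ext (cX_add xs i z.1 w.1)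
        show (KC (R := D) M (xs.map (algebraMap C D))).cl i
          ⟨cX xs i (z.1 + w.1), (cX_mem_Z xs i (z.1 + w.1)).1 (z + w).2⟩ = _
        rw [h, map_add]
        rfl
      map_smul' := fun c z => by
        have h : (⟨cX xs i (c • z.1), (cX_mem_Z xs i (c • z.1)).1 (c • z).2⟩ :
            ↥((KC (R := D) M (xs.map (algebraMap C D))).Z i)) =
            algebraMap C D c • ⟨cX xs i z.1, (cX_mem_Z xs i z.1).1 z.2⟩ :=
          Subtype.ext (cX_smul c xs i z.1)
        show (KC (R := D) M (xs.map (algebraMap C D))).cl i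
          ⟨cX xs i (c • z.1), (cX_mem_Z xs i (c • z.1)).1 (c • z).2⟩ = _
        rw [h, map_smul]
        rfl }
  have hu : Function.Surjective u := by
    intro z
    obtain ⟨x, hx, rfl⟩ := (KC (R := D) M (xs.map (algebraMap C D))).cl_surj i z
    obtain ⟨w, rfl⟩ := (cX_bij xs i).2 x
    exact ⟨⟨w, (cX_mem_Z xs i w).2 hx⟩, rfl⟩
  have hk : LinearMap.ker u = ((KC (R := C) M xs).B i).submoduleOf ((KC (R := C) M xs).Z i) := by
    ext ⟨w, hw⟩
    rw [LinearMap.mem_ker]
    show (KC (R := D) M (xs.map (algebraMap C D))).cl i ⟨cX xs i w, _⟩ = 0 ↔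
      w ∈ (KC (R := C) M xs).B i
    rw [Cx.cl_eq_zero]
    exact (cX_mem_B xs i w).symm
  exact (Submodule.quotEquivOfEq _ _ hk.symm).trans (u.quotKerEquivOfSurjective hu)

/-- **change of rings**: for an additive length `L` over `C`, `len H_i(xs; M)` computed over `C`
or over `D`. -/
theorem len_KC_change (L : ALen C) (xs : List C) (i : ℕ) :
    L.len ((KC (R := C) M xs).H i) =
      (L.res D).len ((KC (R := D) M (xs.map (algebraMap C D))).H i) :=
  len_congr L (cH xs i)

end Change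

end Vale.Agent.P177.KG
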