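import Vale.Agent.P177.Perf.Growth

/-!
P177: the Koszul homology of a module as a Koszul family (`kfam M : KFam R`).
-/

namespace Vale.Agent.P177.KG

universe u

/-- a nonnegatively graded chain complex. -/
structure Cx (R : Type u) [CommRing R] where
  X : ℕ → Type u
  [ag : ∀ i, AddCommGroup (X i)]
  [md : ∀ i, Module R (X i)]
  d : ∀ i, X (i + 1) →ₗ[R] X i
  dd : ∀ i x, d i (d (i + 1) x) = 0

namespace Cx

attribute [instance] Cx.ag Cx.md

variable {R : Type u} [CommRing R] (A : Cx R)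

/-- cycles. -/
def Z : ∀ i, Submodule R (A.X i)
  | 0 => ⊤
  | i + 1 => LinearMap.ker (A.d i)

/-- boundaries. -/
def B (i : ℕ) : Submodule R (A.X i) := LinearMap.range (A.d i)

theorem mem_Z_zero (x : A.X 0) : x ∈ A.Z 0 := Submodule.mem_top

theorem mem_Z_succ {i : ℕ} {x : A.X (i + 1)} : x ∈ A.Z (i + 1) ↔ A.d i x = 0 := Iff.rfl

theorem mem_B {i : ℕ} {x : A.X i} : x ∈ A.B i ↔ ∃ y, A.d i y = x := Iff.rfl

theorem B_le_Z : ∀ i, A.B i ≤ A.Z i
  | 0 => le_top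
  | i + 1 => by
    rintro _ ⟨y, rfl⟩
    exact A.dd i y

/-- homology. -/
def H (i : ℕ) : Type u := ↥(A.Z i) ⧸ (A.B i).submoduleOf (A.Z i)

instance (i : ℕ) : AddCommGroup (A.H i) :=
  inferInstanceAs (AddCommGroup (↥(A.Z i) ⧸ (A.B i).submoduleOf (A.Z i)))

instance (i : ℕ) : Module R (A.H i) :=
  inferInstanceAs (Module R (↥(A.Z i) ⧸ (A.B i).submoduleOf (A.Z i)))

/-- the class of a cycle. -/
def cl (i : ℕ) : ↥(A.Z i) →ₗ[R] A.H i := ((A.B i).submoduleOf (A.Z i)).mkQ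

theorem cl_surj (i : ℕ) (z : A.H i) : ∃ x : A.X i, ∃ hx : x ∈ A.Z i, A.cl i ⟨x, hx⟩ = z := by
  obtain ⟨x, hx⟩ := Submodule.mkQ_surjective _ z
  exact ⟨x.1, x.2, hx⟩

theorem cl_eq_zero {i : ℕ} {x : A.X i} {hx : x ∈ A.Z i} :
    A.cl i ⟨x, hx⟩ = 0 ↔ x ∈ A.B i := by
  show ((A.B i).submoduleOf (A.Z i)).mkQ ⟨x, hx⟩ = 0 ↔ _
  rw [Submodule.mkQ_apply, Submodule.Quotient.mk_eq_zero]
  exact Iff.rfl

theorem cl_eq_cl {i : ℕ} {x y : A.X i} {hx : x ∈ A.Z i} {hy : y ∈ A.Z i} :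
    A.cl i ⟨x, hx⟩ = A.cl i ⟨y, hy⟩ ↔ x - y ∈ A.B i := by
  rw [← sub_eq_zero, ← map_sub]
  exact A.cl_eq_zero

variable {A}

/-- maps on homology. -/
def mapH {A' : Cx R} {i j : ℕ} (f : A.X i →ₗ[R] A'.X j) (hZ : ∀ x ∈ A.Z i, f x ∈ A'.Z j)
    (hB : ∀ x ∈ A.B i, f x ∈ A'.B j) : A.H i →ₗ[R] A'.H j :=
  Submodule.mapQ _ _ (f.restrict hZ) (by
    intro x hx
    exact hB _ hx)

theorem mapH_cl {A' : Cx R} {i j : ℕ} {f : A.X i →ₗ[R] A'.X j}
    {hZ : ∀ x ∈ A.Z i, f x ∈ A'.Z j} {hB : ∀ x ∈ A.B i, f x ∈ A'.B j} {x : A.X i}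
    {hx : x ∈ A.Z i} : mapH f hZ hB (A.cl i ⟨x, hx⟩) = A'.cl j ⟨f x, hZ x hx⟩ := rfl

/-- isomorphisms of complexes. -/
structure Iso (A A' : Cx R) where
  e : ∀ i, A.X i ≃ₗ[R] A'.X i
  comm : ∀ i x, e i (A.d i x) = A'.d i (e (i + 1) x)

namespace Iso

variable {A' A'' : Cx R}

/-- identity. -/
def refl (A : Cx R) : Iso A A := ⟨fun _ => LinearEquiv.refl R _, fun _ _ => rfl⟩

/-- composition. -/
def trans (f : Iso A A') (g : Iso A' A'') : Iso A A'' :=
  ⟨fun i => (f.e i).trans (g.e i), fun i x => by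
    simp only [LinearEquiv.trans_apply]
    rw [f.comm, g.comm]⟩

/-- inverse. -/
def symm (f : Iso A A') : Iso A' A :=
  ⟨fun i => (f.e i).symm, fun i x => by
    apply (f.e i).injective
    rw [LinearEquiv.apply_symm_apply, f.comm, LinearEquiv.apply_symm_apply]⟩

theorem map_Z (f : Iso A A') : ∀ (i : ℕ) (x : A.X i), x ∈ A.Z i → f.e i x ∈ A'.Z i
  | 0, _, _ => Submodule.mem_top
  | i + 1, x, hx => by
    rw [mem_Z_succ] at hx ⊢
    rw [← f.comm, hx, map_zero]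

theorem map_B (f : Iso A A') (i : ℕ) (x : A.X i) (hx : x ∈ A.B i) : f.e i x ∈ A'.B i := by
  obtain ⟨y, rfl⟩ := hx
  exact ⟨f.e (i + 1) y, (f.comm i y).symm⟩

/-- the isomorphism on homology. -/
def homology (f : Iso A A') (i : ℕ) : A.H i ≃ₗ[R] A'.H i :=
  LinearEquiv.ofLinearMap (mapH (f.e i : A.X i →ₗ[R] A'.X i) (f.map_Z i) (f.map_B i))
    (mapH (f.symm.e i : A'.X i →ₗ[R] A.X i) (f.symm.map_Z i) (f.symm.map_B i))
    (by
      ext z
      obtain ⟨x, hx, rfl⟩ := A'.cl_surj i z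
      rw [LinearMap.comp_apply, mapH_cl, mapH_cl, LinearMap.id_apply]
      congr 1
      exact Subtype.ext ((f.e i).apply_symm_apply x))
    (by
      ext z
      obtain ⟨x, hx, rfl⟩ := A.cl_surj i z
      rw [LinearMap.comp_apply, mapH_cl, mapH_cl, LinearMap.id_apply]
      congr 1
      exact Subtype.ext ((f.e i).symm_apply_apply x))

end Iso

variable (A)

/-- modules of the cone. -/
def coneX : ℕ → Type u
  | 0 => A.X 0
  | i + 1 => A.X (i + 1) × A.X i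

instance coneAG : ∀ i, AddCommGroup (A.coneX i)
  | 0 => inferInstanceAs (AddCommGroup (A.X 0))
  | i + 1 => inferInstanceAs (AddCommGroup (A.X (i + 1) × A.X i))

instance coneMD : ∀ i, Module R (A.coneX i)
  | 0 => inferInstanceAs (Module R (A.X 0))
  | i + 1 => inferInstanceAs (Module R (A.X (i + 1) × A.X i))

/-- differential of the cone. -/
def coneD (y : R) : ∀ i, A.coneX (i + 1) →ₗ[R] A.coneX i
  | 0 => ((A.d 0).coprod (y • LinearMap.id) : A.X 1 × A.X 0 →ₗ[R] A.X 0)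
  | i + 1 => (((A.d (i + 1)).coprod (y • LinearMap.id)).prod (-(A.d i) ∘ₗ LinearMap.snd R _ _) :
      A.X (i + 2) × A.X (i + 1) →ₗ[R] A.X (i + 1) × A.X i)

theorem coneD_zero (y : R) (a : A.X 1) (b : A.X 0) :
    A.coneD y 0 ((a, b) : A.X 1 × A.X 0) = A.d 0 a + y • b := rfl

theorem coneD_succ (y : R) (i : ℕ) (a : A.X (i + 2)) (b : A.X (i + 1)) :
    A.coneD y (i + 1) ((a, b) : A.X (i + 2) × A.X (i + 1)) =
      ((A.d (i + 1) a + y • b, - A.d i b) : A.X (i + 1) × A.X i) := rfl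

/-- the cone of multiplication by `y`. -/
def cone (y : R) : Cx R where
  X := A.coneX
  d := A.coneD y
  dd i x := by
    cases i with
    | zero =>
      obtain ⟨a, b⟩ := x
      rw [coneD_succ, coneD_zero, map_add, A.dd, map_smul, zero_add, smul_neg, add_neg_cancel]
      rfl
    | succ i =>
      obtain ⟨a, b⟩ := x
      rw [coneD_succ, coneD_succ, map_add, A.dd, map_smul, zero_add, smul_neg, add_neg_cancel,
        map_neg, A.dd, neg_zero, neg_zero]
      rfl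

/-- the element `(a, b)` of the cone. -/
def pr (y : R) (i : ℕ) (a : A.X (i + 1)) (b : A.X i) : (A.cone y).X (i + 1) :=
  ((a, b) : A.X (i + 1) × A.X i)

/-- the elements of degree `0` of the cone. -/
def p0 (y : R) (a : A.X 0) : (A.cone y).X 0 := a

theorem exists_pr (y : R) (i : ℕ) (x : (A.cone y).X (i + 1)) : ∃ a b, A.pr y i a b = x :=
  ⟨x.1, x.2, rfl⟩

theorem exists_p0 (y : R) (x : (A.cone y).X 0) : ∃ a, A.p0 y a = x := ⟨x, rfl⟩

theorem pr_sub (y : R) (i : ℕ) (a a' : A.X (i + 1)) (b b' : A.X i) :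
    A.pr y i a b - A.pr y i a' b' = A.pr y i (a - a') (b - b') := rfl

theorem pr_smul (y : R) (i : ℕ) (r : R) (a : A.X (i + 1)) (b : A.X i) :
    r • A.pr y i a b = A.pr y i (r • a) (r • b) := rfl

theorem p0_smul (y : R) (r : R) (a : A.X 0) : r • A.p0 y a = A.p0 y (r • a) := rfl

theorem p0_sub (y : R) (a a' : A.X 0) : A.p0 y a - A.p0 y a' = A.p0 y (a - a') := rfl

theorem d_pr_zero (y : R) (a : A.X 1) (b : A.X 0) :
    (A.cone y).d 0 (A.pr y 0 a b) = A.p0 y (A.d 0 a + y • b) := rfl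

theorem d_pr_succ (y : R) (i : ℕ) (a : A.X (i + 2)) (b : A.X (i + 1)) :
    (A.cone y).d (i + 1) (A.pr y (i + 1) a b) =
      A.pr y i (A.d (i + 1) a + y • b) (- A.d i b) := rfl

theorem pr_eq_zero {y : R} {i : ℕ} {a : A.X (i + 1)} {b : A.X i} :
    A.pr y i a b = 0 ↔ a = 0 ∧ b = 0 := Prod.mk_eq_zero

theorem pr_inj {y : R} {i : ℕ} {a a' : A.X (i + 1)} {b b' : A.X i} :
    A.pr y i a b = A.pr y i a' b' ↔ a = a' ∧ b = b' := Prod.mk_inj

theorem mem_Z_cone {y : R} {i : ℕ} {a : A.X (i + 1)} {b : A.X i} :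
    A.pr y i a b ∈ (A.cone y).Z (i + 1) ↔ b ∈ A.Z i ∧ A.d i a + y • b = 0 := by
  rw [mem_Z_succ]
  cases i with
  | zero =>
    rw [d_pr_zero]
    exact ⟨fun h => ⟨mem_Z_zero _ _, h⟩, fun h => h.2⟩
  | succ i =>
    rw [d_pr_succ, pr_eq_zero, neg_eq_zero, mem_Z_succ, and_comm]

theorem mem_B_cone {y : R} {i : ℕ} {a : A.X (i + 1)} {b : A.X i} :
    A.pr y i a b ∈ (A.cone y).B (i + 1) ↔
      ∃ (a' : A.X (i + 2)) (b' : A.X (i + 1)), A.d (i + 1) a' + y • b' = a ∧ - A.d i b' = b := by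
  rw [mem_B]
  constructor
  · rintro ⟨x, h⟩
    obtain ⟨a', b', rfl⟩ := A.exists_pr y (i + 1) x
    rw [d_pr_succ, pr_inj] at h
    exact ⟨a', b', h⟩
  · rintro ⟨a', b', rfl, rfl⟩
    exact ⟨A.pr y (i + 1) a' b', A.d_pr_succ y i a' b'⟩

theorem mem_B_cone_zero {y : R} {a : A.X 0} :
    A.p0 y a ∈ (A.cone y).B 0 ↔ ∃ (a' : A.X 1) (b' : A.X 0), A.d 0 a' + y • b' = a := by
  rw [mem_B]
  constructor
  · rintro ⟨x, h⟩
    obtain ⟨a', b', rfl⟩ := A.exists_pr y 0 x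
    exact ⟨a', b', h⟩
  · rintro ⟨a', b', rfl⟩
    exact ⟨A.pr y 0 a' b', A.d_pr_zero y a' b'⟩

/-- the inclusion `A → cone y A`. -/
def inc (y : R) : ∀ i, A.X i →ₗ[R] (A.cone y).X i
  | 0 => (LinearMap.id : A.X 0 →ₗ[R] A.X 0)
  | i + 1 => (LinearMap.inl R (A.X (i + 1)) (A.X i) : A.X (i + 1) →ₗ[R] A.X (i + 1) × A.X i)

/-- the projection `cone y A → A[-1]`. -/
def prj (y : R) (i : ℕ) : (A.cone y).X (i + 1) →ₗ[R] A.X i :=
  (LinearMap.snd R (A.X (i + 1)) (A.X i) : A.X (i + 1) × A.X i →ₗ[R] A.X i)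

theorem inc_zero (y : R) (x : A.X 0) : A.inc y 0 x = A.p0 y x := rfl

theorem inc_succ (y : R) (i : ℕ) (x : A.X (i + 1)) : A.inc y (i + 1) x = A.pr y i x 0 := rfl

theorem prj_pr (y : R) (i : ℕ) (a : A.X (i + 1)) (b : A.X i) : A.prj y i (A.pr y i a b) = b := rfl

theorem inc_Z (y : R) : ∀ (i : ℕ) (x : A.X i), x ∈ A.Z i → A.inc y i x ∈ (A.cone y).Z i
  | 0, _, _ => mem_Z_zero _ _
  | i + 1, x, hx => by
    rw [inc_succ]
    refine A.mem_Z_cone.2 ⟨Submodule.zero_mem _, ?_⟩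
    rw [mem_Z_succ] at hx
    rw [hx, smul_zero, zero_add]

theorem inc_B (y : R) : ∀ (i : ℕ) (x : A.X i), x ∈ A.B i → A.inc y i x ∈ (A.cone y).B i
  | 0, x, hx => by
    obtain ⟨a, rfl⟩ := hx
    rw [inc_zero]
    exact A.mem_B_cone_zero.2 ⟨a, 0, by rw [smul_zero, add_zero]⟩
  | i + 1, x, hx => by
    obtain ⟨a, rfl⟩ := hx
    rw [inc_succ]
    exact A.mem_B_cone.2 ⟨a, 0, by rw [smul_zero, add_zero], by rw [map_zero, neg_zero]⟩

theorem prj_Z (y : R) (i : ℕ) (x : (A.cone y).X (i + 1)) (hx : x ∈ (A.cone y).Z (i + 1)) :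
    A.prj y i x ∈ A.Z i := by
  obtain ⟨a, b, rfl⟩ := A.exists_pr y i x
  exact (A.mem_Z_cone.1 hx).1

theorem prj_B (y : R) (i : ℕ) (x : (A.cone y).X (i + 1)) (hx : x ∈ (A.cone y).B (i + 1)) :
    A.prj y i x ∈ A.B i := by
  obtain ⟨a, b, rfl⟩ := A.exists_pr y i x
  obtain ⟨a', b', -, rfl⟩ := A.mem_B_cone.1 hx
  rw [prj_pr]
  exact Submodule.neg_mem _ ⟨b', rfl⟩

/-- `H_i(A) → H_i(cone y A)`. -/
def incH (y : R) (i : ℕ) : A.H i →ₗ[R] (A.cone y).H i := mapH (A.inc y i) (A.inc_Z y i) (A.inc_B y i)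

/-- `H_{i+1}(cone y A) → H_i(A)`. -/
def prjH (y : R) (i : ℕ) : (A.cone y).H (i + 1) →ₗ[R] A.H i :=
  mapH (A.prj y i) (A.prj_Z y i) (A.prj_B y i)

theorem exact_incH_prjH (y : R) (i : ℕ) :
    Function.Exact (A.incH y (i + 1)) (A.prjH y i) := by
  intro z
  constructor
  · obtain ⟨x, hx, rfl⟩ := (A.cone y).cl_surj (i + 1) z
    intro h
    rw [prjH, mapH_cl, cl_eq_zero] at h
    obtain ⟨a, b, rfl⟩ := A.exists_pr y i x
    rw [prj_pr] at h
    obtain ⟨b', hb'⟩ := h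
    obtain ⟨-, h2⟩ := A.mem_Z_cone.1 hx
    refine ⟨A.cl (i + 1) ⟨a + y • b', ?_⟩, ?_⟩
    · rw [mem_Z_succ, map_add, map_smul, hb']
      exact h2
    · rw [incH, mapH_cl, cl_eq_cl, inc_succ, pr_sub]
      refine A.mem_B_cone.2 ⟨0, b', ?_, ?_⟩
      · rw [map_zero, zero_add, add_sub_cancel_left]
      · rw [hb', zero_sub]
  · rintro ⟨w, rfl⟩
    obtain ⟨x, hx, rfl⟩ := A.cl_surj (i + 1) w
    rw [incH, mapH_cl, prjH, mapH_cl, cl_eq_zero, inc_succ, prj_pr]
    exact Submodule.zero_mem _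

theorem incH_zero_surjective (y : R) : Function.Surjective (A.incH y 0) := by
  intro z
  obtain ⟨x, hx, rfl⟩ := (A.cone y).cl_surj 0 z
  obtain ⟨a, rfl⟩ := A.exists_p0 y x
  exact ⟨A.cl 0 ⟨a, mem_Z_zero _ _⟩, rfl⟩

theorem exists_prjH (y : R) (i : ℕ) (z : A.H i) (h : y • z = 0) : ∃ w, A.prjH y i w = z := by
  obtain ⟨b, hb, rfl⟩ := A.cl_surj i z
  rw [← map_smul] at h
  obtain ⟨a, ha⟩ := A.cl_eq_zero.1 h
  refine ⟨(A.cone y).cl (i + 1) ⟨A.pr y i (-a) b, ?_⟩, rfl⟩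
  refine A.mem_Z_cone.2 ⟨hb, ?_⟩
  rw [map_neg, ha]
  exact neg_add_cancel _

theorem kill_cone (y : R) (i : ℕ) (z : (A.cone y).H i) : y • z = 0 := by
  obtain ⟨x, hx, rfl⟩ := (A.cone y).cl_surj i z
  rw [← map_smul]
  refine (A.cone y).cl_eq_zero.2 ?_
  cases i with
  | zero =>
    obtain ⟨a, rfl⟩ := A.exists_p0 y x
    rw [p0_smul]
    exact A.mem_B_cone_zero.2 ⟨0, a, by rw [map_zero, zero_add]⟩
  | succ i =>
    obtain ⟨a, b, rfl⟩ := A.exists_pr y i x
    obtain ⟨-, h2⟩ := A.mem_Z_cone.1 hx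
    rw [pr_smul]
    refine A.mem_B_cone.2 ⟨0, a, ?_, ?_⟩
    · rw [map_zero, zero_add]
    · exact (neg_eq_of_add_eq_zero_right h2)

/-- the cone of an isomorphism. -/
def Iso.cone {A A' : Cx R} (f : Iso A A') (y : R) : Iso (A.cone y) (A'.cone y) where
  e
    | 0 => (f.e 0 : A.X 0 ≃ₗ[R] A'.X 0)
    | i + 1 => (LinearEquiv.prodCongr (f.e (i + 1)) (f.e i) :
        (A.X (i + 1) × A.X i) ≃ₗ[R] (A'.X (i + 1) × A'.X i))
  comm i x := by
    cases i with
    | zero =>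
      obtain ⟨a, b, rfl⟩ := A.exists_pr y 0 x
      show f.e 0 (A.d 0 a + y • b) = A'.d 0 (f.e 1 a) + y • f.e 0 b
      rw [map_add, map_smul, f.comm]
    | succ i =>
      obtain ⟨a, b, rfl⟩ := A.exists_pr y (i + 1) x
      show ((f.e (i + 1) (A.d (i + 1) a + y • b), f.e i (- A.d i b)) : A'.X (i + 1) × A'.X i) =
        (A'.d (i + 1) (f.e (i + 2) a) + y • f.e (i + 1) b, - A'.d i (f.e (i + 1) b))
      rw [map_add, map_smul, f.comm, map_neg, f.comm]

/-- the swap in one degree. -/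
def sw (P Q S : Type u) [AddCommGroup P] [Module R P] [AddCommGroup Q] [Module R Q]
    [AddCommGroup S] [Module R S] : ((P × Q) × (Q × S)) ≃ₗ[R] ((P × Q) × (Q × S)) where
  toFun x := ((x.1.1, x.2.1), (x.1.2, -x.2.2))
  map_add' x y := by
    simp only [Prod.fst_add, Prod.snd_add, neg_add, Prod.mk_add_mk]
  map_smul' r x := by
    simp only [Prod.smul_fst, Prod.smul_snd, smul_neg, RingHom.id_apply, Prod.smul_mk]
  invFun x := ((x.1.1, x.2.1), (x.1.2, -x.2.2))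
  left_inv x := by simp
  right_inv x := by simp

/-- the swap in degree one. -/
def sw1 (P Q : Type u) [AddCommGroup P] [Module R P] [AddCommGroup Q] [Module R Q] :
    ((P × Q) × Q) ≃ₗ[R] ((P × Q) × Q) where
  toFun x := ((x.1.1, x.2), x.1.2)
  map_add' _ _ := rfl
  map_smul' _ _ := rfl
  invFun x := ((x.1.1, x.2), x.1.2)
  left_inv _ := rfl
  right_inv _ := rfl

/-- the swap of two cones. -/
def swap (x y : R) : Iso ((A.cone y).cone x) ((A.cone x).cone y) where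
  e
    | 0 => (LinearEquiv.refl R (A.X 0) : A.X 0 ≃ₗ[R] A.X 0)
    | 1 => (sw1 (A.X 1) (A.X 0) : ((A.X 1 × A.X 0) × A.X 0) ≃ₗ[R] ((A.X 1 × A.X 0) × A.X 0))
    | i + 2 => (sw (A.X (i + 2)) (A.X (i + 1)) (A.X i) :
        ((A.X (i + 2) × A.X (i + 1)) × (A.X (i + 1) × A.X i)) ≃ₗ[R]
          ((A.X (i + 2) × A.X (i + 1)) × (A.X (i + 1) × A.X i)))
  comm i z := by
    match i with
    | 0 =>
      obtain ⟨w, c, rfl⟩ := (A.cone y).exists_pr x 0 z
      obtain ⟨a, b, rfl⟩ := A.exists_pr y 0 w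
      obtain ⟨c, rfl⟩ := A.exists_p0 y c
      show (A.d 0 a + y • b) + x • c = (A.d 0 a + x • c) + y • b
      exact add_right_comm _ _ _
    | 1 =>
      obtain ⟨w, w', rfl⟩ := (A.cone y).exists_pr x 1 z
      obtain ⟨a, b, rfl⟩ := A.exists_pr y 1 w
      obtain ⟨c, e, rfl⟩ := A.exists_pr y 0 w'
      have h : ((((A.d 1 a + y • b) + x • c, - (A.d 0 c + y • e)), - A.d 0 b + x • e) :
          (A.X 1 × A.X 0) × A.X 0) =
        (((A.d 1 a + x • c) + y • b, - A.d 0 c + y • (-e)), - (A.d 0 b + x • (-e))) := by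
        refine Prod.ext (Prod.ext ?_ ?_) ?_
        · exact add_right_comm _ _ _
        · simp only [neg_add, smul_neg]
        · simp only [neg_add, smul_neg, neg_neg]
      exact h
    | i + 2 =>
      obtain ⟨w, w', rfl⟩ := (A.cone y).exists_pr x (i + 2) z
      obtain ⟨a, b, rfl⟩ := A.exists_pr y (i + 2) w
      obtain ⟨c, e, rfl⟩ := A.exists_pr y (i + 1) w'
      have h : ((((A.d (i + 2) a + y • b) + x • c, - (A.d (i + 1) c + y • e)),
          (- A.d (i + 1) b + x • e, - - - A.d i e)) :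
          (A.X (i + 2) × A.X (i + 1)) × (A.X (i + 1) × A.X i)) =
        (((A.d (i + 2) a + x • c) + y • b, - A.d (i + 1) c + y • (-e)),
          (- (A.d (i + 1) b + x • (-e)), - - A.d i (-e))) := by
        refine Prod.ext (Prod.ext ?_ ?_) (Prod.ext ?_ ?_)
        · exact add_right_comm _ _ _
        · simp only [neg_add, smul_neg]
        · simp only [neg_add, smul_neg, neg_neg]
        · simp only [map_neg, neg_neg]
      exact h

/-! ### products -/

/-- `cone x' A → cone (x * x') A`. -/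
def pf (x x' : R) : ∀ i, (A.cone x').X i →ₗ[R] (A.cone (x * x')).X i
  | 0 => (x • LinearMap.id : A.X 0 →ₗ[R] A.X 0)
  | i + 1 => (LinearMap.prodMap (x • LinearMap.id) LinearMap.id :
      (A.X (i + 1) × A.X i) →ₗ[R] (A.X (i + 1) × A.X i))

/-- `cone (x * x') A → cone x A`. -/
def pg (x x' : R) : ∀ i, (A.cone (x * x')).X i →ₗ[R] (A.cone x).X i
  | 0 => (LinearMap.id : A.X 0 →ₗ[R] A.X 0)
  | i + 1 => (LinearMap.prodMap LinearMap.id (x' • LinearMap.id) :
      (A.X (i + 1) × A.X i) →ₗ[R] (A.X (i + 1) × A.X i))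

theorem pf_zero (x x' : R) (a : A.X 0) : A.pf x x' 0 (A.p0 x' a) = A.p0 (x * x') (x • a) := rfl

theorem pf_succ (x x' : R) (i : ℕ) (a : A.X (i + 1)) (b : A.X i) :
    A.pf x x' (i + 1) (A.pr x' i a b) = A.pr (x * x') i (x • a) b := rfl

theorem pg_zero (x x' : R) (a : A.X 0) : A.pg x x' 0 (A.p0 (x * x') a) = A.p0 x a := rfl

theorem pg_succ (x x' : R) (i : ℕ) (a : A.X (i + 1)) (b : A.X i) :
    A.pg x x' (i + 1) (A.pr (x * x') i a b) = A.pr x i a (x' • b) := rfl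

theorem pf_Z (x x' : R) : ∀ (i : ℕ) (z : (A.cone x').X i), z ∈ (A.cone x').Z i →
    A.pf x x' i z ∈ (A.cone (x * x')).Z i
  | 0, _, _ => mem_Z_zero _ _
  | i + 1, z, hz => by
    obtain ⟨a, b, rfl⟩ := A.exists_pr x' i z
    rw [pf_succ]
    obtain ⟨h1, h2⟩ := A.mem_Z_cone.1 hz
    refine A.mem_Z_cone.2 ⟨h1, ?_⟩
    rw [map_smul, mul_smul, ← smul_add, h2, smul_zero]

theorem pf_B (x x' : R) : ∀ (i : ℕ) (z : (A.cone x').X i), z ∈ (A.cone x').B i →
    A.pf x x' i z ∈ (A.cone (x * x')).B i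
  | 0, z, hz => by
    obtain ⟨a, rfl⟩ := A.exists_p0 x' z
    rw [pf_zero]
    obtain ⟨a', b', rfl⟩ := A.mem_B_cone_zero.1 hz
    refine A.mem_B_cone_zero.2 ⟨x • a', b', ?_⟩
    rw [map_smul, mul_smul, ← smul_add]
  | i + 1, z, hz => by
    obtain ⟨a, b, rfl⟩ := A.exists_pr x' i z
    rw [pf_succ]
    obtain ⟨a', b', rfl, rfl⟩ := A.mem_B_cone.1 hz
    refine A.mem_B_cone.2 ⟨x • a', b', ?_, rfl⟩
    rw [map_smul, mul_smul, ← smul_add]

theorem pg_Z (x x' : R) : ∀ (i : ℕ) (z : (A.cone (x * x')).X i), z ∈ (A.cone (x * x')).Z i →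
    A.pg x x' i z ∈ (A.cone x).Z i
  | 0, _, _ => mem_Z_zero _ _
  | i + 1, z, hz => by
    obtain ⟨a, b, rfl⟩ := A.exists_pr (x * x') i z
    rw [pg_succ]
    obtain ⟨h1, h2⟩ := A.mem_Z_cone.1 hz
    refine A.mem_Z_cone.2 ⟨Submodule.smul_mem _ _ h1, ?_⟩
    rw [smul_smul, h2]

theorem pg_B (x x' : R) : ∀ (i : ℕ) (z : (A.cone (x * x')).X i), z ∈ (A.cone (x * x')).B i →
    A.pg x x' i z ∈ (A.cone x).B i
  | 0, z, hz => by
    obtain ⟨a, rfl⟩ := A.exists_p0 (x * x') z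
    rw [pg_zero]
    obtain ⟨a', b', rfl⟩ := A.mem_B_cone_zero.1 hz
    exact A.mem_B_cone_zero.2 ⟨a', x' • b', by rw [smul_smul]⟩
  | i + 1, z, hz => by
    obtain ⟨a, b, rfl⟩ := A.exists_pr (x * x') i z
    rw [pg_succ]
    obtain ⟨a', b', rfl, rfl⟩ := A.mem_B_cone.1 hz
    exact A.mem_B_cone.2 ⟨a', x' • b', by rw [smul_smul], by rw [map_smul, smul_neg]⟩

theorem exact_pf_pg (x x' : R) (i : ℕ) :
    Function.Exact (mapH (A.pf x x' i) (A.pf_Z x x' i) (A.pf_B x x' i))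
      (mapH (A.pg x x' i) (A.pg_Z x x' i) (A.pg_B x x' i)) := by
  intro z
  constructor
  · obtain ⟨w, hw, rfl⟩ := (A.cone (x * x')).cl_surj i z
    intro h
    rw [mapH_cl, cl_eq_zero] at h
    cases i with
    | zero =>
      obtain ⟨a, rfl⟩ := A.exists_p0 (x * x') w
      rw [pg_zero] at h
      obtain ⟨a', b', rfl⟩ := A.mem_B_cone_zero.1 h
      refine ⟨(A.cone x').cl 0 ⟨A.p0 x' b', mem_Z_zero _ _⟩, ?_⟩
      rw [mapH_cl, cl_eq_cl, pf_zero, p0_sub]
      refine A.mem_B_cone_zero.2 ⟨-a', 0, ?_⟩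
      rw [map_neg, smul_zero]
      abel
    | succ i =>
      obtain ⟨a, b, rfl⟩ := A.exists_pr (x * x') i w
      rw [pg_succ] at h
      obtain ⟨a', b', h1, h2⟩ := A.mem_B_cone.1 h
      obtain ⟨h3, h4⟩ := A.mem_Z_cone.1 hw
      refine ⟨(A.cone x').cl (i + 1) ⟨A.pr x' i b' b, ?_⟩, ?_⟩
      · refine A.mem_Z_cone.2 ⟨h3, ?_⟩
        rw [← h2, add_neg_cancel]
      · rw [mapH_cl, cl_eq_cl, pf_succ, pr_sub]
        refine A.mem_B_cone.2 ⟨-a', 0, ?_, ?_⟩
        · rw [map_neg, smul_zero, ← h1]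
          abel
        · rw [map_zero, neg_zero, sub_self]
  · rintro ⟨u, rfl⟩
    obtain ⟨w, hw, rfl⟩ := (A.cone x').cl_surj i u
    rw [mapH_cl, mapH_cl, cl_eq_zero]
    cases i with
    | zero =>
      obtain ⟨a, rfl⟩ := A.exists_p0 x' w
      rw [pf_zero, pg_zero]
      exact A.mem_B_cone_zero.2 ⟨0, a, by rw [map_zero, zero_add]⟩
    | succ i =>
      obtain ⟨a, b, rfl⟩ := A.exists_pr x' i w
      obtain ⟨h3, h4⟩ := A.mem_Z_cone.1 hw
      rw [pf_succ, pg_succ]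
      refine A.mem_B_cone.2 ⟨0, a, by rw [map_zero, zero_add], ?_⟩
      exact neg_eq_of_add_eq_zero_right h4

end Cx

/-! ### the Koszul complex of a module -/

section Kos

variable {R : Type u} [CommRing R]

/-- modules of the complex `M` in degree `0`. -/
def ptX (M : Type u) : ℕ → Type u
  | 0 => M
  | _ + 1 => PUnit.{u + 1}

instance ptAG (M : Type u) [AddCommGroup M] : ∀ i, AddCommGroup (ptX M i)
  | 0 => inferInstanceAs (AddCommGroup M)
  | _ + 1 => inferInstanceAs (AddCommGroup PUnit.{u + 1})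

instance ptMD (M : Type u) [AddCommGroup M] [Module R M] : ∀ i, Module R (ptX M i)
  | 0 => inferInstanceAs (Module R M)
  | _ + 1 => inferInstanceAs (Module R PUnit.{u + 1})

/-- the complex `M` in degree `0`. -/
def pt (R : Type u) [CommRing R] (M : Type u) [AddCommGroup M] [Module R M] : Cx R where
  X := ptX M
  d _ := 0
  dd _ _ := rfl

/-- the Koszul complex of a list. -/
def KC (M : Type u) [AddCommGroup M] [Module R M] : List R → Cx R
  | [] => pt R M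
  | x :: xs => (KC M xs).cone x

/-- the permutation isomorphism of Koszul complexes. -/
theorem KC_perm (M : Type u) [AddCommGroup M] [Module R M] {xs ys : List R} (h : xs.Perm ys) :
    Nonempty (Cx.Iso (KC M xs) (KC M ys)) := by
  induction h with
  | nil => exact ⟨Cx.Iso.refl _⟩
  | cons x _ ih =>
    obtain ⟨f⟩ := ih
    exact ⟨Cx.Iso.cone f x⟩
  | swap x y l => exact ⟨Cx.swap (KC M l) y x⟩
  | trans _ _ ih1 ih2 =>
    obtain ⟨f⟩ := ih1
    obtain ⟨g⟩ := ih2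
    exact ⟨f.trans g⟩

/-- the Koszul homology of `M` as a Koszul family. -/
def kfam (M : Type u) [AddCommGroup M] [Module R M] : KFam R where
  H xs i := (KC M xs).H i
  perm i h := by
    obtain ⟨f⟩ := KC_perm M h
    exact ⟨f.homology i⟩
  kill x xs i z := (KC M xs).kill_cone x i z
  a x xs i := (KC M xs).incH x i
  b x xs i := (KC M xs).prjH x i
  ex x xs i := (KC M xs).exact_incH_prjH x i
  surj x xs := (KC M xs).incH_zero_surjective x
  tor x xs i z h := (KC M xs).exists_prjH x i z h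
  prod x x' xs i := ⟨_, _, (KC M xs).exact_pf_pg x x' i⟩

variable (L : ALen R) (M : Type u) [AddCommGroup M] [Module R M]

/-- elements of the ideal kill Koszul homology. -/
theorem KC_kill {xs : List R} {x : R} (hx : x ∈ Ideal.ofList xs) (i : ℕ) (z : (KC M xs).H i) :
    x • z = 0 := (kfam M).kill_ofList hx i z

/-- invariance of the length under permutations. -/
theorem KC_len_perm {xs ys : List R} (h : xs.Perm ys) (i : ℕ) :
    L.len ((KC M xs).H i) = L.len ((KC M ys).H i) := (kfam M).len_perm L h i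

/-- **growth 1** for Koszul homology. -/
theorem KC_growth1 {g : R} {cs ys : List R} (h : ∀ y ∈ ys, g * y ∈ Ideal.ofList cs) (i : ℕ) :
    L.len (pw g ys.length ((KC M cs).H i)) ≤
      KFam.bsum cs.length (fun q => L.len ((KC M ys).H q)) (i + ys.length) :=
  (kfam M).growth1 L h i

/-- **growth 2** for Koszul homology. -/
theorem KC_growth2 (ys : List R) (N i : ℕ) :
    L.len ((KC M (ys.map (· ^ N))).H i) ≤ (N : ENNReal) ^ ys.length * L.len ((KC M ys).H i) :=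
  (kfam M).growth2 L ys N i

/-- **growth 3** for Koszul homology. -/
theorem KC_growth3 {g : R} {cs ys : List R} {l : ℕ} (h : ∀ y ∈ ys, g * y ^ l ∈ Ideal.ofList cs)
    (t i : ℕ) :
    L.len (pw (g ^ (cs.length * t + 1)) ys.length ((KC M (cs.map (· ^ t))).H i)) ≤
      ((l * (cs.length * t + 1) : ℕ) : ENNReal) ^ ys.length *
        KFam.bsum cs.length (fun q => L.len ((KC M ys).H q)) (i + ys.length) :=
  (kfam M).growth3 L h t i

/-- **growth 3** for Koszul homology, `g = 1`. -/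
theorem KC_growth3' {cs ys : List R} {l : ℕ} (h : ∀ y ∈ ys, y ^ l ∈ Ideal.ofList cs)
    (t i : ℕ) :
    L.len ((KC M (cs.map (· ^ t))).H i) ≤
      ((l * (cs.length * t + 1) : ℕ) : ENNReal) ^ ys.length *
        KFam.bsum cs.length (fun q => L.len ((KC M ys).H q)) (i + ys.length) :=
  (kfam M).growth3' L h t i

theorem KC_X_subsingleton (xs : List R) : ∀ i, xs.length < i → Subsingleton ((KC M xs).X i) := by
  induction xs with
  | nil =>
    intro i hi
    cases i with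
    | zero => exact absurd hi (lt_irrefl _)
    | succ i => exact inferInstanceAs (Subsingleton PUnit.{u + 1})
  | cons x xs ih =>
    intro i hi
    rw [List.length_cons] at hi
    cases i with
    | zero => exact absurd hi (Nat.not_lt_zero _)
    | succ i =>
      have h1 : Subsingleton ((KC M xs).X (i + 1)) := ih (i + 1) (by omega)
      have h2 : Subsingleton ((KC M xs).X i) := ih i (by omega)
      exact inferInstanceAs (Subsingleton ((KC M xs).X (i + 1) × (KC M xs).X i))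

theorem KC_H_subsingleton (xs : List R) {i : ℕ} (hi : xs.length < i) :
    Subsingleton ((KC M xs).H i) := by
  have := KC_X_subsingleton M xs i hi
  refine ⟨fun z w => ?_⟩
  obtain ⟨x, hx, rfl⟩ := (KC M xs).cl_surj i z
  obtain ⟨y, hy, rfl⟩ := (KC M xs).cl_surj i w
  congr 1
  exact Subtype.ext (Subsingleton.elim _ _)

theorem KC_len_eq_zero (xs : List R) {i : ℕ} (hi : xs.length < i) :
    L.len ((KC M xs).H i) = 0 := by
  have := KC_H_subsingleton M xs hi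
  exact len_subsingleton L

/-- the bound of growth 3 as `C * (t + 1) ^ |ys|`, when the homology of `ys` is bounded. -/
theorem KC_growth3_const {cs ys : List R} {l : ℕ} (h : ∀ y ∈ ys, y ^ l ∈ Ideal.ofList cs)
    {c : ENNReal} (hc : ∀ q, L.len ((KC M ys).H q) ≤ c) (t i : ℕ) :
    L.len ((KC M (cs.map (· ^ t))).H i) ≤
      ((l * (cs.length + 1)) ^ ys.length * 2 ^ cs.length : ℕ) * c *
        ((t + 1 : ℕ) : ENNReal) ^ ys.length := by
  refine (KC_growth3' L M h t i).trans ?_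
  have h1 : KFam.bsum cs.length (fun q => L.len ((KC M ys).H q)) (i + ys.length) ≤
      (2 ^ cs.length : ℕ) * c := by
    refine (Finset.sum_le_sum (g := fun jq : ℕ × ℕ => (cs.length.choose jq.1 : ENNReal) * c)
      fun jq _ => mul_le_mul' le_rfl (hc jq.2)).trans ?_
    rw [← Finset.sum_mul]
    refine mul_le_mul' ?_ le_rfl
    rw [← Nat.cast_sum]
    refine Nat.cast_le.2 ?_
    rw [Finset.Nat.sum_antidiagonal_eq_sum_range_succ_mk, ← Nat.sum_range_choose]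
    rcases le_total (i + ys.length + 1) (cs.length + 1) with hle | hle
    · exact Finset.sum_le_sum_of_subset (Finset.range_mono hle)
    · refine le_of_eq (Finset.sum_subset (Finset.range_mono hle) ?_).symm
      intro x _ hx
      rw [Finset.mem_range, not_lt] at hx
      exact Nat.choose_eq_zero_of_lt hx
  have h2 : ((l * (cs.length * t + 1) : ℕ) : ENNReal) ≤
      ((l * (cs.length + 1) * (t + 1) : ℕ) : ENNReal) := by
    refine Nat.cast_le.2 ?_
    rw [mul_assoc]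
    refine Nat.mul_le_mul le_rfl ?_
    nlinarith [Nat.zero_le cs.length, Nat.zero_le t]
  refine (mul_le_mul' (pow_le_pow_left' h2 _) h1).trans (le_of_eq ?_)
  push_cast
  rw [mul_pow]
  ring

end Kos

end Vale.Agent.P177.KG
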