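import Vale.Agent.P177.Perf.Ratliff
import Vale.Agent.P202.Mix.Defs

/-!
# P177 / Perf : perfect hulls of ideals of a perfect ring

`perfHull p P = {x | x^(p^e) ∈ P^(p^e) for some e}`. It is an ideal closed under
`c ↦ ∏_j (c j)^(1/p)` (`p` factors). Main facts, for `I = (a_1, .., a_m)`:
* `exists_sum_of_mem_perfHull` : `perfHull (P I^(n+1)) = ∑ a_g perfHull (P I^n)` if `m ≤ n + 1`;
* `mem_perfHull_of_mul_mem` : `(perfHull (P I^(n+1)) : I) = perfHull (P I^n)` if `1 ≤ n`
  (`C` a domain, `P` finitely generated, `I ≠ 0`).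
-/

namespace Vale.Agent.P177.Perf

open Vale.Agent.P202.Mix
open scoped Pointwise

universe u

section basic

variable (p : ℕ) [Fact p.Prime] {C : Type u} [CommRing C] [CharP C p]

/-- the perfect hull of an ideal -/
def perfHull (P : Ideal C) : Ideal C where
  carrier := {x | ∃ e : ℕ, x ^ p ^ e ∈ P ^ p ^ e}
  add_mem' := by
    rintro x y ⟨e, he⟩ ⟨f, hf⟩
    refine ⟨e + f, ?_⟩
    rw [add_pow_char_pow]
    refine Ideal.add_mem _ ?_ ?_
    · rw [pow_add, pow_mul, pow_mul]; exact Ideal.pow_mem_pow he _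
    · rw [pow_add, mul_comm, pow_mul, pow_mul]; exact Ideal.pow_mem_pow hf _
  zero_mem' := ⟨0, by simp⟩
  smul_mem' := by
    rintro c x ⟨e, he⟩
    refine ⟨e, ?_⟩
    rw [smul_eq_mul, mul_pow]
    exact Ideal.mul_mem_left _ _ he

variable {p} {P Q I : Ideal C} {x y : C}

theorem mem_perfHull : x ∈ perfHull p P ↔ ∃ e : ℕ, x ^ p ^ e ∈ P ^ p ^ e := Iff.rfl

theorem le_perfHull : P ≤ perfHull p P := fun x hx => ⟨0, by simpa using hx⟩

omit [Fact p.Prime] [CharP C p] in
theorem pow_mem_of_le {e f : ℕ} (h : e ≤ f) (hx : x ^ p ^ e ∈ P ^ p ^ e) :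
    x ^ p ^ f ∈ P ^ p ^ f := by
  obtain ⟨d, rfl⟩ := Nat.exists_eq_add_of_le h
  rw [pow_add, pow_mul, pow_mul]
  exact Ideal.pow_mem_pow hx _

theorem perfHull_mono (h : P ≤ Q) : perfHull p P ≤ perfHull p Q := by
  rintro x ⟨e, he⟩
  exact ⟨e, Ideal.pow_right_mono h _ he⟩

theorem perfHull_top : perfHull p (⊤ : Ideal C) = ⊤ := top_le_iff.1 le_perfHull

theorem mul_mem_perfHull (hx : x ∈ perfHull p P) (hy : y ∈ perfHull p Q) :
    x * y ∈ perfHull p (P * Q) := by
  obtain ⟨e, he⟩ := hx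
  obtain ⟨f, hf⟩ := hy
  refine ⟨max e f, ?_⟩
  rw [mul_pow, mul_pow]
  exact Ideal.mul_mem_mul (pow_mem_of_le (le_max_left _ _) he)
    (pow_mem_of_le (le_max_right _ _) hf)

theorem perfHull_mul_le : perfHull p P * perfHull p Q ≤ perfHull p (P * Q) :=
  Ideal.mul_le.2 fun _ hx _ hy => mul_mem_perfHull hx hy

/-- membership can be tested on a `p`-th power -/
theorem pow_mem_perfHull_iff {e : ℕ} : x ^ p ^ e ∈ perfHull p (P ^ p ^ e) ↔ x ∈ perfHull p P := by
  constructor
  · rintro ⟨f, hf⟩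
    refine ⟨e + f, ?_⟩
    rwa [pow_add, pow_mul, pow_mul]
  · rintro ⟨f, hf⟩
    refine ⟨f, ?_⟩
    rw [← pow_mul, ← pow_mul, mul_comm, pow_mul, pow_mul]
    exact Ideal.pow_mem_pow hf _

theorem prod_mem_perfHull_pow {k : ℕ} (c : Fin k → C) (hc : ∀ j, c j ∈ perfHull p P) :
    ∏ j, c j ∈ perfHull p (P ^ k) := by
  induction k with
  | zero => simp [perfHull_top]
  | succ k ih =>
    rw [Fin.prod_univ_castSucc, pow_succ]
    exact mul_mem_perfHull (ih (fun j => c j.castSucc) fun j => hc _) (hc _)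

/-- `perfHull` is closed under geometric means -/
theorem perfHull_closed [PerfectRing C p] (c : Fin p → C) (hc : ∀ j, c j ∈ perfHull p P) :
    ∏ j, rt p 1 (c j) ∈ perfHull p P := by
  rw [← pow_mem_perfHull_iff (e := 1), ← Finset.prod_pow]
  have h : ∀ j, rt p 1 (c j) ^ p ^ 1 = c j := fun j => by
    have := (iterateFrobeniusEquiv C p 1).apply_symm_apply (c j)
    rwa [iterateFrobeniusEquiv_def] at this
  rw [Finset.prod_congr rfl fun j _ => h j]
  simpa using prod_mem_perfHull_pow c hc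

end basic

section pigeon

variable {R : Type*} [CommRing R]

/-- pigeonhole: `I^k ⊆ ∑ a_g^q I^(k-q)` for `I = (a_1,..,a_m)`, `k > m (q-1)` -/
theorem pigeonhole {m : ℕ} (a : Fin m → R) (k q : ℕ) (h : m * (q - 1) < k) {z : R}
    (hz : z ∈ Ideal.span (Set.range a) ^ k) :
    ∃ c : Fin m → R, (∀ g, c g ∈ Ideal.span (Set.range a) ^ (k - q)) ∧
      z = ∑ g, a g ^ q * c g := by
  classical
  rw [Ideal.span, Submodule.span_pow] at hz
  refine Submodule.span_induction (p := fun z _ => ∃ c : Fin m → R,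
    (∀ g, c g ∈ Ideal.span (Set.range a) ^ (k - q)) ∧ z = ∑ g, a g ^ q * c g) ?_ ?_ ?_ ?_ hz
  · intro t ht
    obtain ⟨f, hf⟩ := Set.mem_pow.1 ht
    choose h' hh using fun i => (f i).2
    have ht' : t = ∏ i, a (h' i) := by
      rw [← hf, List.prod_ofFn]
      exact Finset.prod_congr rfl fun i _ => (hh i).symm
    obtain ⟨g, hg⟩ := Fintype.exists_lt_card_fiber_of_mul_lt_card (f := h') (n := q - 1)
      (by simpa using h)
    have hg' : q ≤ (Finset.univ.filter fun i => h' i = g).card := by omega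
    have hprod : t = a g ^ (Finset.univ.filter fun i => h' i = g).card *
        ∏ i ∈ Finset.univ.filter (fun i => h' i ≠ g), a (h' i) := by
      rw [ht', ← Finset.prod_filter_mul_prod_filter_not Finset.univ (fun i => h' i = g)]
      congr 1
      rw [Finset.prod_congr rfl (g := fun _ => a g), Finset.prod_const]
      intro i hi
      rw [(Finset.mem_filter.1 hi).2]
    have hcard : (Finset.univ.filter fun i => h' i = g).card +
        (Finset.univ.filter fun i => h' i ≠ g).card = k := by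
      have := Finset.card_filter_add_card_filter_not (s := (Finset.univ : Finset (Fin k)))
        (fun i => h' i = g)
      simpa using this
    have hmem : ∏ i ∈ Finset.univ.filter (fun i => h' i ≠ g), a (h' i) ∈
        Ideal.span (Set.range a) ^ (Finset.univ.filter fun i => h' i ≠ g).card := by
      rw [← Finset.prod_const]
      exact Ideal.prod_mem_prod fun i _ => Ideal.subset_span (Set.mem_range_self _)
    refine ⟨Pi.single g (a g ^ ((Finset.univ.filter fun i => h' i = g).card - q) *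
      ∏ i ∈ Finset.univ.filter (fun i => h' i ≠ g), a (h' i)), ?_, ?_⟩
    · intro g'
      by_cases hgg : g' = g
      · subst hgg
        rw [Pi.single_eq_same]
        have : k - q = ((Finset.univ.filter fun i => h' i = g').card - q) +
            (Finset.univ.filter fun i => h' i ≠ g').card := by omega
        rw [this, pow_add]
        exact Ideal.mul_mem_mul
          (Ideal.pow_mem_pow (Ideal.subset_span (Set.mem_range_self g')) _) hmem
      · rw [Pi.single_eq_of_ne hgg]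
        exact Ideal.zero_mem _
    · rw [Finset.sum_eq_single g]
      · rw [Pi.single_eq_same, ← mul_assoc, ← pow_add, Nat.add_sub_cancel' hg']
        exact hprod
      · intro g' _ hgg
        rw [Pi.single_eq_of_ne hgg, mul_zero]
      · intro h; exact absurd (Finset.mem_univ _) h
  · exact ⟨0, fun g => Ideal.zero_mem _, by simp⟩
  · rintro x y _ _ ⟨c, hc, rfl⟩ ⟨d, hd, rfl⟩
    refine ⟨c + d, fun g => Ideal.add_mem _ (hc g) (hd g), ?_⟩
    simp [mul_add, Finset.sum_add_distrib]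
  · rintro r x _ ⟨c, hc, rfl⟩
    refine ⟨fun g => r * c g, fun g => Ideal.mul_mem_left _ _ (hc g), ?_⟩
    rw [smul_eq_mul, Finset.mul_sum]
    exact Finset.sum_congr rfl fun g _ => by ring

/-- the same with a second ideal -/
theorem pigeonhole_mul {m : ℕ} (a : Fin m → R) (K : Ideal R) (k q : ℕ) (h : m * (q - 1) < k) {z : R}
    (hz : z ∈ K * Ideal.span (Set.range a) ^ k) :
    ∃ c : Fin m → R, (∀ g, c g ∈ K * Ideal.span (Set.range a) ^ (k - q)) ∧
      z = ∑ g, a g ^ q * c g := by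
  refine Submodule.mul_induction_on hz ?_ ?_
  · intro u hu v hv
    obtain ⟨c, hc, rfl⟩ := pigeonhole a k q h hv
    refine ⟨fun g => u * c g, fun g => Ideal.mul_mem_mul hu (hc g), ?_⟩
    rw [Finset.mul_sum]
    exact Finset.sum_congr rfl fun g _ => by ring
  · rintro x y ⟨c, hc, rfl⟩ ⟨d, hd, rfl⟩
    refine ⟨c + d, fun g => Ideal.add_mem _ (hc g) (hd g), ?_⟩
    simp [mul_add, Finset.sum_add_distrib]

end pigeon

section main

variable {p : ℕ} [Fact p.Prime] {C : Type u} [CommRing C] [CharP C p] [PerfectRing C p]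

theorem exists_sum_of_mem_perfHull {m : ℕ} (a : Fin m → C) (P : Ideal C) {n : ℕ} (hn : m ≤ n + 1)
    {x : C} (hx : x ∈ perfHull p (P * Ideal.span (Set.range a) ^ (n + 1))) :
    ∃ c : Fin m → C, (∀ g, c g ∈ perfHull p (P * Ideal.span (Set.range a) ^ n)) ∧
      x = ∑ g, a g * c g := by
  obtain ⟨e, he⟩ := hx
  set I := Ideal.span (Set.range a)
  set q := p ^ e with hq
  have hq1 : 1 ≤ q := Nat.one_le_pow _ _ (Fact.out : p.Prime).pos
  have h1 : x ^ q ∈ P ^ q * I ^ ((n + 1) * q) := by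
    rwa [mul_pow, ← pow_mul] at he
  obtain ⟨c, hc, h2⟩ := pigeonhole_mul a (P ^ q) ((n + 1) * q) q (by
    have h3 : m * (q - 1) ≤ (n + 1) * (q - 1) := Nat.mul_le_mul_right _ hn
    have h4 : (n + 1) * (q - 1) < (n + 1) * q :=
      Nat.mul_lt_mul_of_pos_left (by omega) (by omega)
    omega) h1
  have hroot : ∀ y : C, (rt p e y) ^ q = y := fun y => by
    have := (iterateFrobeniusEquiv C p e).apply_symm_apply y
    rwa [iterateFrobeniusEquiv_def] at this
  refine ⟨fun g => rt p e (c g), fun g => ⟨e, ?_⟩, ?_⟩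
  · rw [← hq, hroot, mul_pow, ← pow_mul]
    have : (n + 1) * q - q = n * q := by rw [add_mul, one_mul, Nat.add_sub_cancel]
    have h3 := hc g
    rwa [this] at h3
  · apply (iterateFrobeniusEquiv C p e).injective
    rw [map_sum, iterateFrobeniusEquiv_def, ← hq, h2]
    refine Finset.sum_congr rfl fun g _ => ?_
    rw [iterateFrobeniusEquiv_def, ← hq, mul_pow, hroot]

omit [PerfectRing C p] in
theorem mul_gen_mem_perfHull {P I : Ideal C} {n : ℕ} {x z : C} (hz : z ∈ I)
    (hx : x ∈ perfHull p (P * I ^ n)) : z * x ∈ perfHull p (P * I ^ (n + 1)) := by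
  have := mul_mem_perfHull (p := p) (le_perfHull (p := p) hz) hx
  rwa [show I * (P * I ^ n) = P * I ^ (n + 1) by ring] at this

end main

section descent

variable {C : Type u} [CommRing C]

theorem exists_subring_of_mem_span {T : Set C} {y : C} (hy : y ∈ Ideal.span T) :
    ∃ F : Finset C, ∀ R' : Subring C, (F : Set C) ⊆ R' → ∀ T' : Set R',
      T ⊆ Subtype.val '' T' → ∃ y' ∈ Ideal.span T', (y' : C) = y := by
  classical
  refine Submodule.span_induction (p := fun y _ => ∃ F : Finset C, ∀ R' : Subring C,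
    (F : Set C) ⊆ R' → ∀ T' : Set R', T ⊆ Subtype.val '' T' → ∃ y' ∈ Ideal.span T', (y' : C) = y)
    ?_ ?_ ?_ ?_ hy
  · intro t ht
    refine ⟨∅, fun R' _ T' hT => ?_⟩
    obtain ⟨t', h1, h2⟩ := hT ht
    exact ⟨t', Ideal.subset_span h1, h2⟩
  · exact ⟨∅, fun R' _ T' _ => ⟨0, Ideal.zero_mem _, rfl⟩⟩
  · rintro x y _ _ ⟨F, hF⟩ ⟨G, hG⟩
    refine ⟨F ∪ G, fun R' hR T' hT => ?_⟩
    obtain ⟨x', h1, h2⟩ := hF R' (fun z hz => hR (by simp [Finset.mem_coe.1 hz])) T' hT
    obtain ⟨y', h3, h4⟩ := hG R' (fun z hz => hR (by simp [Finset.mem_coe.1 hz])) T' hT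
    exact ⟨x' + y', Ideal.add_mem _ h1 h3, by simp [h2, h4]⟩
  · rintro c x _ ⟨F, hF⟩
    refine ⟨insert c F, fun R' hR T' hT => ?_⟩
    obtain ⟨x', h1, h2⟩ := hF R' (fun z hz => hR (by simp [Finset.mem_coe.1 hz])) T' hT
    have hc : c ∈ R' := hR (by simp)
    exact ⟨⟨c, hc⟩ * x', Ideal.mul_mem_left _ _ h1, by simp [h2]⟩

/-- the generators of `((b) (a)^k)^q` -/
theorem span_mul_pow_pow {R : Type*} [CommRing R] (s t : Set R) (k q : ℕ) :
    (Ideal.span s * Ideal.span t ^ k) ^ q = Ideal.span ((s * t ^ k) ^ q) := by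
  have h : ∀ (s : Set R) (n : ℕ), Ideal.span s ^ n = Ideal.span (s ^ n) := fun s n =>
    Submodule.span_pow s n
  rw [h, Ideal.span_mul_span', h]

end descent

section colon

variable {p : ℕ} [Fact p.Prime] {C : Type u} [CommRing C] [CharP C p] [IsDomain C]

theorem mem_perfHull_of_mul_mem {m : ℕ} (a : Fin m → C) (P : Ideal C) (hP : P.FG)
    (hI : Ideal.span (Set.range a) ≠ ⊥) {n : ℕ} (hn : 1 ≤ n) {x : C}
    (hx : ∀ g, a g * x ∈ perfHull p (P * Ideal.span (Set.range a) ^ (n + 1))) :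
    x ∈ perfHull p (P * Ideal.span (Set.range a) ^ n) := by
  classical
  obtain ⟨b, hb⟩ := hP
  choose e he using hx
  let e0 := Finset.univ.sup e
  have he0 : ∀ g, (a g * x) ^ p ^ e0 ∈ (P * Ideal.span (Set.range a) ^ (n + 1)) ^ p ^ e0 :=
    fun g => pow_mem_of_le (Finset.le_sup (f := e) (Finset.mem_univ g)) (he g)
  set q0 := p ^ e0 with hq0
  subst hb
  change ∀ g, _ ∈ (Ideal.span (b : Set C) * _) ^ q0 at he0
  simp only [span_mul_pow_pow] at he0
  choose F hF using fun g => exists_subring_of_mem_span (he0 g)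
  let gen : Set C := ((Finset.univ.biUnion F : Finset C) : Set C) ∪ Set.range a ∪ b ∪ {x ^ q0}
  have hgen : gen.Finite :=
    (((Finset.finite_toSet _).union (Set.finite_range a)).union b.finite_toSet).union
      (Set.finite_singleton _)
  let R' : Subring C := Subring.closure gen
  have : IsNoetherianRing R' := is_noetherian_subring_closure gen hgen
  have hsub : gen ⊆ R' := Subring.subset_closure
  have haR : ∀ g, a g ∈ R' := fun g => hsub (Or.inl (Or.inl (Or.inr ⟨g, rfl⟩)))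
  have hbR : ∀ z ∈ b, z ∈ R' := fun z hz => hsub (Or.inl (Or.inr hz))
  have hxR : x ^ q0 ∈ R' := hsub (Or.inr rfl)
  let a' : Fin m → R' := fun g => ⟨a g, haR g⟩
  let b' : Set R' := Subtype.val ⁻¹' (b : Set C)
  let X : R' := ⟨x ^ q0, hxR⟩
  let I' : Ideal R' := Ideal.span (Set.range a')
  let P' : Ideal R' := Ideal.span b'
  have hI' : I' ≠ ⊥ := by
    intro h
    apply hI
    rw [Ideal.span_eq_bot]
    rintro _ ⟨g, rfl⟩
    have : a' g ∈ I' := Ideal.subset_span ⟨g, rfl⟩
    rw [h, Ideal.mem_bot] at this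
    exact congrArg Subtype.val this
  have himg : ((b : Set C) * Set.range a ^ (n + 1)) ^ q0 ⊆
      Subtype.val '' ((b' * Set.range a' ^ (n + 1)) ^ q0) := by
    have h1 : (R'.subtype : R' → C) '' ((b' * Set.range a' ^ (n + 1)) ^ q0) =
        ((b : Set C) * Set.range a ^ (n + 1)) ^ q0 := by
      rw [Set.image_pow, Set.image_mul, Set.image_pow]
      congr 2
      · ext z
        constructor
        · rintro ⟨y, hy, rfl⟩; exact hy
        · intro hz; exact ⟨⟨z, hbR z hz⟩, hz, rfl⟩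
      · congr 1
        rw [← Set.range_comp]
        rfl
    rw [← h1]
    rfl
  have hkey : ∀ g, a' g ^ q0 * X ∈ (P' * I' ^ (n + 1)) ^ q0 := by
    intro g
    obtain ⟨y', h1, h2⟩ := hF g R' (fun z hz => hsub (Or.inl (Or.inl (Or.inl (by
      simp only [Finset.coe_biUnion, Set.mem_iUnion]
      exact ⟨g, by simp, hz⟩))))) _ himg
    rw [← span_mul_pow_pow] at h1
    have h3 : y' = a' g ^ q0 * X := by
      apply Subtype.ext
      rw [h2]
      simp [a', X, mul_pow]
    rwa [h3] at h1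
  obtain ⟨k, hk⟩ := colon_large I' P' hI'
  -- a large power of `p`
  obtain ⟨s, hs⟩ : ∃ s : ℕ, k ≤ p ^ s := ⟨k, (Nat.lt_pow_self (Fact.out : p.Prime).one_lt).le⟩
  set q := q0 * p ^ s with hq
  have hq0pos : 0 < q0 := pow_pos (Fact.out : p.Prime).pos _
  have hqk : k ≤ n * q := by
    calc k ≤ p ^ s := hs
      _ ≤ q0 * p ^ s := Nat.le_mul_of_pos_left _ hq0pos
      _ ≤ n * q := Nat.le_mul_of_pos_left _ hn
  have hqpos : 0 < q := Nat.mul_pos hq0pos (pow_pos (Fact.out : p.Prime).pos _)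
  have hkey' : ∀ g, a' g ^ q * X ^ p ^ s ∈ P' ^ q * I' ^ ((n + 1) * q) := by
    intro g
    have h1 := Ideal.pow_mem_pow (hkey g) (p ^ s)
    have h2 : (a' g ^ q0 * X) ^ p ^ s = a' g ^ q * X ^ p ^ s := by
      rw [mul_pow, ← pow_mul]
    have h3 : ((P' * I' ^ (n + 1)) ^ q0) ^ p ^ s = P' ^ q * I' ^ ((n + 1) * q) := by
      rw [← pow_mul, ← hq, mul_pow, ← pow_mul]
    rwa [h2, h3] at h1
  have hm : 0 < m := by
    rcases Nat.eq_zero_or_pos m with h | h
    · exfalso
      subst h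
      apply hI
      rw [Ideal.span_eq_bot]
      rintro _ ⟨g, rfl⟩
      exact g.elim0
    · exact h
  have hfin : X ^ p ^ s ∈ I' ^ (n * q) * P' ^ q := by
    refine hk (n * q) hqk q (m * q) _ fun z hz => ?_
    obtain ⟨c, hc, rfl⟩ := pigeonhole a' (m * q) q
      (Nat.mul_lt_mul_of_pos_left (by omega) hm) hz
    rw [Finset.sum_mul]
    refine Ideal.sum_mem _ fun g _ => ?_
    have h1 := Ideal.mul_mem_mul (hc g) (hkey' g)
    have h2 : I' ^ (m * q - q) * (P' ^ q * I' ^ ((n + 1) * q)) = I' ^ (n * q + m * q) * P' ^ q := by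
      have h3 : n * q + m * q = (m * q - q) + (n + 1) * q := by
        have : q ≤ m * q := Nat.le_mul_of_pos_left _ hm
        rw [add_mul, one_mul]; omega
      rw [h3, pow_add]; ring
    rw [h2] at h1
    have h4 : a' g ^ q * c g * X ^ p ^ s = c g * (a' g ^ q * X ^ p ^ s) := by ring
    rwa [h4]
  refine ⟨e0 + s, ?_⟩
  have h1 : x ^ p ^ (e0 + s) = R'.subtype (X ^ p ^ s) := by
    rw [map_pow]
    change _ = (x ^ q0) ^ p ^ s
    rw [← pow_mul, pow_add]
  rw [h1]
  have h2 := Ideal.mem_map_of_mem R'.subtype hfin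
  rw [Ideal.map_mul, Ideal.map_pow, Ideal.map_pow, Ideal.map_span, Ideal.map_span,
    ← Set.range_comp] at h2
  have h3 : (R'.subtype ∘ a') = a := rfl
  have h4 : (R'.subtype '' b') = b := by
    ext z
    constructor
    · rintro ⟨y, hy, rfl⟩; exact hy
    · intro hz; exact ⟨⟨z, hbR z hz⟩, hz, rfl⟩
  rw [h3, h4] at h2
  have h5 : (Ideal.span (b : Set C) * Ideal.span (Set.range a) ^ n) ^ p ^ (e0 + s) =
      Ideal.span (Set.range a) ^ (n * q) * Ideal.span (b : Set C) ^ q := by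
    have : p ^ (e0 + s) = q := by rw [hq, hq0, pow_add]
    rw [this, mul_pow, ← pow_mul]; ring
  change _ ∈ (Ideal.span (b : Set C) * Ideal.span (Set.range a) ^ n) ^ p ^ (e0 + s)
  rw [h5]
  exact h2

end colon

end Vale.Agent.P177.Perf
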