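import Vale.Agent.P177.WJ
import Vale.Agent.P202.Mix.Defs

/-!
Perfect ideals and their Witt vectors: colon ideals, sums, regular elements.
-/

namespace Vale.Agent.P177.WJ

open WittVector

variable {p : ℕ} [hp : Fact (Nat.Prime p)] {C : Type*} [CommRing C] [CharP C p] [PerfectRing C p]

/-- comparison with the roots used in `P202`. -/
theorem rt_eq (n : ℕ) (x : C) : rt p n x = Vale.Agent.P202.Mix.rt p n x := by
  refine rt_unique n ?_
  rw [Vale.Agent.P202.Mix.rt, ← iterateFrobenius_def, ← iterateFrobeniusEquiv_apply,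
    RingEquiv.apply_symm_apply]

theorem rt_add (n : ℕ) (x y : C) : rt p n (x + y) = rt p n x + rt p n y := by
  simp only [rt_eq]
  exact map_add _ _ _

theorem rt_sub (n : ℕ) (x y : C) : rt p n (x - y) = rt p n x - rt p n y := by
  simp only [rt_eq]
  exact map_sub _ _ _

theorem rt_zero' (n : ℕ) : rt p n (0 : C) = 0 := by
  rw [rt_eq]; exact map_zero _

theorem rt_one' (n : ℕ) : rt p n (1 : C) = 1 := by
  rw [rt_eq]; exact map_one _

theorem rt_sum {ι : Type*} (s : Finset ι) (n : ℕ) (a : ι → C) :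
    rt p n (∑ i ∈ s, a i) = ∑ i ∈ s, rt p n (a i) := by
  simp only [rt_eq]
  exact map_sum _ _ _

theorem rt_prod {ι : Type*} (s : Finset ι) (n : ℕ) (a : ι → C) :
    rt p n (∏ i ∈ s, a i) = ∏ i ∈ s, rt p n (a i) := by
  simp only [rt_eq]
  exact map_prod _ _ _

theorem isPerf_top : IsPerf p (⊤ : Ideal C) := fun _ _ _ _ _ _ => Submodule.mem_top

theorem IsPerf.inf {J J' : Ideal C} (h : IsPerf p J) (h' : IsPerf p J') : IsPerf p (J ⊓ J') :=
  fun a ha b hb i hi => ⟨h a ha.1 b hb.1 i hi, h' a ha.2 b hb.2 i hi⟩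

theorem WJ_mono {J J' : Ideal C} (hJ : IsPerf p J) (hJ' : IsPerf p J') (h : J ≤ J') :
    WJ hJ ≤ WJ hJ' := fun _ hx n => h (hx n)

theorem WJ_top : WJ (isPerf_top (p := p) (C := C)) = ⊤ :=
  eq_top_iff.2 fun _ _ _ => Submodule.mem_top

/-- digits of `[a] x`. -/
theorem dig_teichmuller_mul (a : C) (x : WittVector p C) (n : ℕ) :
    dig (teichmuller p a * x) n = a * dig x n := by
  rw [dig_eq_iff, P202.Mix.teichmuller_mul_coeff, mul_pow, dig_pow]

theorem teichmuller_mul_mem {J : Ideal C} (hJ : IsPerf p J) {a : C} {x : WittVector p C} :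
    teichmuller p a * x ∈ WJ hJ ↔ ∀ n, a * dig x n ∈ J := by
  rw [mem_WJ]
  refine forall_congr' fun n => ?_
  rw [dig_teichmuller_mul]

/-- multiplication by `[a]` maps `W(J')` to `W(J)` if `a J' ⊆ J`. -/
theorem teichmuller_mul_mem_of_le {J J' : Ideal C} (hJ : IsPerf p J) (hJ' : IsPerf p J') {a : C}
    (h : ∀ x ∈ J', a * x ∈ J) {x : WittVector p C} (hx : x ∈ WJ hJ') :
    teichmuller p a * x ∈ WJ hJ :=
  (teichmuller_mul_mem hJ).2 fun n => h _ (hx n)

/-- colon ideals. -/
theorem mem_WJ_of_colon {J J' : Ideal C} (hJ : IsPerf p J) (hJ' : IsPerf p J') {ι : Type*}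
    (a : ι → C) (h : ∀ x : C, (∀ s, a s * x ∈ J) → x ∈ J') {x : WittVector p C}
    (hx : ∀ s, teichmuller p (a s) * x ∈ WJ hJ) : x ∈ WJ hJ' :=
  fun n => h _ fun s => (teichmuller_mul_mem hJ).1 (hx s) n

theorem eq_of_dvd_sub {x y : WittVector p C} (h : ∀ N : ℕ, (p : WittVector p C) ^ N ∣ x - y) :
    x = y := by
  ext n
  exact P202.Mix.coeff_eq_of_dvd_sub (h (n + 1)) (Nat.lt_succ_self n)

/-- the Witt vector with given digits. -/
noncomputable def ofDig (d : ℕ → C) : WittVector p C := WittVector.mk p fun n => d n ^ p ^ n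

theorem dig_ofDig (d : ℕ → C) (n : ℕ) : dig (ofDig (p := p) d) n = d n := by
  rw [dig_eq_iff, ofDig, coeff_mk]

theorem ofDig_mem {J : Ideal C} (hJ : IsPerf p J) {d : ℕ → C} (h : ∀ n, d n ∈ J) :
    ofDig (p := p) d ∈ WJ hJ := fun n => by rw [dig_ofDig]; exact h n

/-- an element of `W(J)` is a Teichmueller representative of an element of `J` plus `p` times an
element of `W(J)`. -/
theorem exists_teichmuller_add {J : Ideal C} (hJ : IsPerf p J) {x : WittVector p C}
    (hx : x ∈ WJ hJ) {c : C} (hc : c ∈ J) (h : x.coeff 0 = c) :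
    ∃ y ∈ WJ hJ, x = teichmuller p c + (p : WittVector p C) * y := by
  obtain ⟨y, hy⟩ := p_dvd_of_coeff_zero (x := x) (y := teichmuller p c)
    (by rw [h, teichmuller_coeff_zero])
  refine ⟨y, (p_mul_mem hJ).1 ?_, by rw [← hy]; ring⟩
  rw [← hy]
  exact Ideal.sub_mem _ hx ((teichmuller_mem hJ).2 hc)

/-- if every element of `J` is a sum of elements of `a_s J'`, every element of `W(J)` is a sum of
elements of `[a_s] W(J')`. -/
theorem exists_sum {J J' : Ideal C} (hJ : IsPerf p J) (hJ' : IsPerf p J') {ι : Type*} [Fintype ι]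
    (a : ι → C) (h1 : ∀ s, ∀ x ∈ J', a s * x ∈ J)
    (h : ∀ x ∈ J, ∃ c : ι → C, (∀ s, c s ∈ J') ∧ x = ∑ s, a s * c s)
    {x : WittVector p C} (hx : x ∈ WJ hJ) :
    ∃ y : ι → WittVector p C, (∀ s, y s ∈ WJ hJ') ∧ x = ∑ s, teichmuller p (a s) * y s := by
  classical
  have step : ∀ x : WJ hJ, ∃ (c : ι → C) (x' : WJ hJ), (∀ s, c s ∈ J') ∧
      (x : WittVector p C) = ∑ s, teichmuller p (a s) * teichmuller p (c s) +
        (p : WittVector p C) * (x' : WittVector p C) := by
    rintro ⟨x, hx⟩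
    obtain ⟨c, hc, h2⟩ := h _ (coeff_mem hJ hx)
    have h3 : x - ∑ s, teichmuller p (a s) * teichmuller p (c s) ∈ WJ hJ := by
      refine Ideal.sub_mem _ hx (Ideal.sum_mem _ fun s _ => ?_)
      rw [← map_mul]
      exact (teichmuller_mem hJ).2 (h1 s _ (hc s))
    have h4 : (x - ∑ s, teichmuller p (a s) * teichmuller p (c s)).coeff 0 = 0 := by
      have h5 : ∀ z : WittVector p C, z.coeff 0 = WittVector.constantCoeff z := fun _ => rfl
      rw [h5, map_sub, map_sum]
      have h6 : ∀ s, WittVector.constantCoeff (teichmuller p (a s) * teichmuller p (c s)) =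
          a s * c s := fun s => by
        rw [map_mul, ← h5, ← h5, teichmuller_coeff_zero, teichmuller_coeff_zero]
      simp only [h6]
      rw [← h5, h2, sub_self]
    obtain ⟨y, hy, h5⟩ := exists_of_coeff_zero hJ h3 h4
    exact ⟨c, ⟨y, hy⟩, hc, by simp only; rw [← h5]; ring⟩
  choose c x' hc hx' using step
  let X : ℕ → WJ hJ := fun n => x'^[n] ⟨x, hx⟩
  have hX : ∀ n, X (n + 1) = x' (X n) := fun n => Function.iterate_succ_apply' x' n _
  refine ⟨fun s => ofDig fun n => c (X n) s, fun s => ofDig_mem hJ' fun n => hc _ s, ?_⟩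
  have key : ∀ N : ℕ, x = ∑ s, teichmuller p (a s) *
      (∑ n ∈ Finset.range N, (p : WittVector p C) ^ n * teichmuller p (c (X n) s)) +
      (p : WittVector p C) ^ N * (X N : WittVector p C) := by
    intro N
    induction N with
    | zero => simp [X]
    | succ N ih =>
      conv_lhs => rw [ih]
      rw [hx' (X N), hX]
      simp only [Finset.sum_range_succ, mul_add, Finset.sum_add_distrib, Finset.mul_sum]
      have h6 : ∀ s, teichmuller p (a s) * ((p : WittVector p C) ^ N *
          teichmuller p (c (X N) s)) = (p : WittVector p C) ^ N *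
          (teichmuller p (a s) * teichmuller p (c (X N) s)) := fun s => by ring
      simp only [h6, pow_succ]
      ring
  refine eq_of_dvd_sub fun N => ?_
  have h7 : ∀ s, (p : WittVector p C) ^ N ∣
      (ofDig (p := p) fun n => c (X n) s) -
        ∑ n ∈ Finset.range N, (p : WittVector p C) ^ n * teichmuller p (c (X n) s) := by
    intro s
    have h8 := exists_digits (ofDig (p := p) fun n => c (X n) s) N
    have h10 : ∀ i, rt p i ((ofDig (p := p) fun n => c (X n) s).coeff i) = c (X i) s :=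
      fun i => dig_ofDig (p := p) (fun n => c (X n) s) i
    simpa only [h10] using h8
  have h9 : x - ∑ s, teichmuller p (a s) * (ofDig (p := p) fun n => c (X n) s) =
      (p : WittVector p C) ^ N * (X N : WittVector p C) - ∑ s, teichmuller p (a s) *
        ((ofDig (p := p) fun n => c (X n) s) -
        ∑ n ∈ Finset.range N, (p : WittVector p C) ^ n * teichmuller p (c (X n) s)) := by
    conv_lhs => rw [key N]
    simp only [mul_sub, Finset.sum_sub_distrib]
    ring
  rw [h9]
  exact dvd_sub (dvd_mul_right _ _) (Finset.dvd_sum fun s _ => Dvd.dvd.mul_left (h7 s) _)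

/-! ### regular elements -/

/-- if the first coefficient of `E` is a nonzerodivisor, `E x ∈ p W(C)` implies `x ∈ p W(J)`. -/
theorem exists_of_mul_eq {J : Ideal C} (hJ : IsPerf p J) {E : WittVector p C}
    (hE : E.coeff 0 ∈ nonZeroDivisors C) {x y : WittVector p C} (hx : x ∈ WJ hJ)
    (h : E * x = (p : WittVector p C) * y) :
    ∃ z ∈ WJ hJ, x = (p : WittVector p C) * z ∧ y = E * z := by
  have h1 : E.coeff 0 * x.coeff 0 = 0 := by
    have h2 := congrArg (WittVector.constantCoeff (p := p) (R := C)) h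
    rw [map_mul] at h2
    change E.coeff 0 * x.coeff 0 = _ at h2
    rw [h2]
    change ((p : WittVector p C) * y).coeff 0 = 0
    rw [mul_comm, mul_charP_coeff_zero]
  have h2 : x.coeff 0 = 0 := (mul_left_mem_nonZeroDivisors_eq_zero_iff hE).1 h1
  obtain ⟨z, hz, rfl⟩ := exists_of_coeff_zero hJ hx h2
  refine ⟨z, hz, rfl, ?_⟩
  have h3 : (p : WittVector p C) * (y - E * z) = 0 := by rw [mul_sub, ← h]; ring
  have h4 : y - E * z = 0 := by
    ext n
    have h6 := congrArg (fun w => w.coeff (n + 1)) h3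
    simp only [mul_comm (p : WittVector p C), mul_charP_coeff_succ, zero_coeff] at h6
    rw [zero_coeff]
    exact eq_of_pow (p := p) 1 (by rw [pow_one, h6, zero_pow (Fact.out : p.Prime).ne_zero])
  exact sub_eq_zero.1 h4

/-- `E` is a nonzerodivisor if its first coefficient is one. -/
theorem eq_zero_of_mul {E : WittVector p C} (hE : E.coeff 0 ∈ nonZeroDivisors C)
    {x : WittVector p C} (h : E * x = 0) : x = 0 := by
  have key : ∀ N : ℕ, ∃ y : WittVector p C, x = (p : WittVector p C) ^ N * y ∧ E * y = 0 := by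
    intro N
    induction N with
    | zero => exact ⟨x, by simp, h⟩
    | succ N ih =>
      obtain ⟨y, hy, hEy⟩ := ih
      obtain ⟨z, -, hz, h0⟩ := exists_of_mul_eq (isPerf_top (p := p) (C := C)) hE (x := y) (y := 0)
        (fun _ => Submodule.mem_top) (by rw [hEy, mul_zero])
      exact ⟨z, by rw [hy, hz, pow_succ, mul_assoc], h0.symm⟩
  refine eq_of_dvd_sub fun N => ?_
  obtain ⟨y, hy, -⟩ := key N
  rw [sub_zero, hy]
  exact dvd_mul_right _ _

/-- iterated version: `E x ∈ p ^ N W(C)` implies `x ∈ p ^ N W(J)`. -/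
theorem exists_of_mul_eq_pow {J : Ideal C} (hJ : IsPerf p J) {E : WittVector p C}
    (hE : E.coeff 0 ∈ nonZeroDivisors C) (N : ℕ) {x y : WittVector p C} (hx : x ∈ WJ hJ)
    (h : E * x = (p : WittVector p C) ^ N * y) :
    ∃ z ∈ WJ hJ, x = (p : WittVector p C) ^ N * z ∧ y = E * z := by
  induction N generalizing x y with
  | zero => exact ⟨x, hx, by simp, by rw [h]; simp⟩
  | succ N ih =>
    obtain ⟨z, hz, rfl, h2⟩ := exists_of_mul_eq hJ hE hx (y := (p : WittVector p C) ^ N * y)
      (by rw [h, pow_succ']; ring)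
    obtain ⟨w, hw, rfl, h3⟩ := ih hz h2.symm
    exact ⟨w, hw, by rw [pow_succ']; ring, h3⟩

end Vale.Agent.P177.WJ
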