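import Mathlib

/-!
P177, block B7 input: growth of Koszul homology of ONE module over a commutative ring, for an
additive length with values in `ℝ≥0∞`.  Nothing is noetherian here.
-/

namespace Vale.Agent.P177.KG

open scoped ENNReal

universe u

/-- an additive length (same fields as `P202.Mix.AddLen`; convert with `⟨L.len, L.zero, L.add⟩`). -/
structure ALen (R : Type u) [CommRing R] where
  len : ∀ (M : Type u) [AddCommGroup M] [Module R M], ℝ≥0∞
  zero : len PUnit.{u + 1} = 0
  add : ∀ {M N K : Type u} [AddCommGroup M] [Module R M] [AddCommGroup N] [Module R N]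
    [AddCommGroup K] [Module R K] (f : M →ₗ[R] N) (g : N →ₗ[R] K),
    Function.Injective f → Function.Surjective g → Function.Exact f g →
    len N = len M + len K

section Basic

variable {R : Type u} [CommRing R] (L : ALen R)
variable {M N K : Type u} [AddCommGroup M] [Module R M]
  [AddCommGroup N] [Module R N] [AddCommGroup K] [Module R K]

theorem len_congr (e : M ≃ₗ[R] N) : L.len M = L.len N := by
  have h := L.add (e : M →ₗ[R] N) (0 : N →ₗ[R] PUnit.{u + 1}) e.injective
    (fun y => ⟨0, Subsingleton.elim _ _⟩)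
    (fun y => ⟨fun _ => ⟨e.symm y, by simp⟩, fun _ => Subsingleton.elim _ _⟩)
  rw [L.zero, add_zero] at h
  exact h.symm

theorem len_sub_quot (X : Submodule R M) : L.len M = L.len X + L.len (M ⧸ X) := by
  refine L.add X.subtype X.mkQ X.injective_subtype X.mkQ_surjective ?_
  rw [LinearMap.exact_iff, Submodule.ker_mkQ, Submodule.range_subtype]

theorem len_subsingleton [Subsingleton M] : L.len M = 0 := by
  rw [← L.zero]
  exact len_congr L (N := PUnit.{u + 1}) (LinearEquiv.ofSubsingleton M PUnit.{u + 1})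

theorem len_le_of_inj (f : M →ₗ[R] N) (hf : Function.Injective f) : L.len M ≤ L.len N := by
  rw [len_sub_quot L (LinearMap.range f), len_congr L (LinearEquiv.ofInjective f hf)]
  exact le_self_add

theorem len_le_of_surj (f : M →ₗ[R] N) (hf : Function.Surjective f) : L.len N ≤ L.len M := by
  rw [len_sub_quot L (LinearMap.ker f), ← len_congr L (f.quotKerEquivOfSurjective hf)]
  exact le_add_self

theorem len_sub_mono {X Y : Submodule R M} (h : X ≤ Y) : L.len X ≤ L.len Y :=
  len_le_of_inj L (Submodule.inclusion h) (Submodule.inclusion_injective h)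

theorem len_range_le (f : M →ₗ[R] N) : L.len (LinearMap.range f) ≤ L.len M :=
  len_le_of_surj L f.rangeRestrict f.surjective_rangeRestrict

theorem len_map_le (f : M →ₗ[R] N) (X : Submodule R M) : L.len (X.map f) ≤ L.len X := by
  have h : X.map f = LinearMap.range (f ∘ₗ X.subtype) := by
    rw [LinearMap.range_comp, Submodule.range_subtype]
  rw [h]
  exact len_range_le L _

theorem len_sub_le (X : Submodule R M) : L.len X ≤ L.len M :=
  len_le_of_inj L X.subtype X.injective_subtype

/-- exact in the middle: `len N ≤ len M + len K`. -/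
theorem len_le_of_exact (f : M →ₗ[R] N) (g : N →ₗ[R] K) (h : Function.Exact f g) :
    L.len N ≤ L.len M + L.len K := by
  rw [len_sub_quot L (LinearMap.ker g), len_congr L g.quotKerEquivRange]
  refine add_le_add ?_ (len_sub_le L _)
  have h1 : LinearMap.ker g = LinearMap.range f := by
    rw [LinearMap.exact_iff] at h
    exact h
  rw [h1]
  exact len_range_le L f

/-- the submodule `g ^ c M`. -/
def pw (g : R) (c : ℕ) (M : Type u) [AddCommGroup M] [Module R M] : Submodule R M :=
  LinearMap.range (LinearMap.lsmul R M (g ^ c))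

theorem mem_pw {g : R} {c : ℕ} {x : M} : x ∈ pw g c M ↔ ∃ y : M, g ^ c • y = x := by
  simp [pw]

theorem pw_zero (g : R) : pw g 0 M = ⊤ := by
  ext x
  simp [mem_pw]

theorem len_pw_le (g : R) (c : ℕ) : L.len (pw g c M) ≤ L.len M := len_sub_le L _

theorem len_pw_one (c : ℕ) : L.len (pw (1 : R) c M) = L.len M := by
  have h : pw (1 : R) c M = ⊤ := by
    ext x
    simp [mem_pw]
  rw [h]
  exact len_congr L Submodule.topEquiv

end Basic

/-! ### abstract Koszul families -/

/-- an abstract Koszul family: what is used of the Koszul homology `H xs i` of a module. -/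
structure KFam (R : Type u) [CommRing R] where
  H : List R → ℕ → Type u
  [ag : ∀ xs i, AddCommGroup (H xs i)]
  [md : ∀ xs i, Module R (H xs i)]
  perm : ∀ {xs ys : List R} (i : ℕ), xs.Perm ys → Nonempty (H xs i ≃ₗ[R] H ys i)
  kill : ∀ (x : R) (xs : List R) (i : ℕ) (z : H (x :: xs) i), x • z = 0
  a : ∀ (x : R) (xs : List R) (i : ℕ), H xs i →ₗ[R] H (x :: xs) i
  b : ∀ (x : R) (xs : List R) (i : ℕ), H (x :: xs) (i + 1) →ₗ[R] H xs i
  ex : ∀ (x : R) (xs : List R) (i : ℕ), Function.Exact (a x xs (i + 1)) (b x xs i)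
  surj : ∀ (x : R) (xs : List R), Function.Surjective (a x xs 0)
  tor : ∀ (x : R) (xs : List R) (i : ℕ) (z : H xs i), x • z = 0 → ∃ w, b x xs i w = z
  prod : ∀ (x x' : R) (xs : List R) (i : ℕ),
    ∃ (f : H (x' :: xs) i →ₗ[R] H ((x * x') :: xs) i)
      (g : H ((x * x') :: xs) i →ₗ[R] H (x :: xs) i), Function.Exact f g

namespace KFam

attribute [instance] KFam.ag KFam.md

variable {R : Type u} [CommRing R] (F : KFam R) (L : ALen R)

theorem len_perm {xs ys : List R} (h : xs.Perm ys) (i : ℕ) :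
    L.len (F.H xs i) = L.len (F.H ys i) := by
  obtain ⟨e⟩ := F.perm i h
  exact len_congr L e

theorem kill_mem {xs : List R} {x : R} (hx : x ∈ xs) (i : ℕ) (z : F.H xs i) : x • z = 0 := by
  obtain ⟨l1, l2, rfl⟩ := List.append_of_mem hx
  obtain ⟨e⟩ := F.perm i (List.perm_middle (a := x) (l₁ := l1) (l₂ := l2))
  have h := F.kill x (l1 ++ l2) i (e z)
  rw [← map_smul] at h
  exact (LinearEquiv.map_eq_zero_iff e).1 h

theorem kill_ofList {xs : List R} {x : R} (hx : x ∈ Ideal.ofList xs) (i : ℕ) (z : F.H xs i) :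
    x • z = 0 := by
  have h : Ideal.ofList xs ≤ (LinearMap.ker (LinearMap.toSpanSingleton R (F.H xs i) z)) := by
    rw [Ideal.ofList, Ideal.span_le]
    intro y hy
    show y • z = 0
    exact F.kill_mem hy i z
  exact h hx

theorem len_cons_succ (x : R) (xs : List R) (i : ℕ) :
    L.len (F.H (x :: xs) (i + 1)) ≤ L.len (F.H xs (i + 1)) + L.len (F.H xs i) :=
  len_le_of_exact L _ _ (F.ex x xs i)

theorem len_cons_zero (x : R) (xs : List R) : L.len (F.H (x :: xs) 0) ≤ L.len (F.H xs 0) :=
  len_le_of_surj L _ (F.surj x xs)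

/-- the binomial sum `∑_{j + q = i} (n choose j) φ q`. -/
noncomputable def bsum (n : ℕ) (φ : ℕ → ℝ≥0∞) (i : ℕ) : ℝ≥0∞ :=
  ∑ jq ∈ Finset.HasAntidiagonal.antidiagonal i, (n.choose jq.1 : ℝ≥0∞) * φ jq.2

theorem bsum_zero_left (φ : ℕ → ℝ≥0∞) (i : ℕ) : bsum 0 φ i = φ i := by
  rw [bsum]
  rw [Finset.sum_eq_single (0, i)]
  · simp
  · rintro ⟨j, q⟩ hjq hne
    rw [Finset.HasAntidiagonal.mem_antidiagonal] at hjq
    have hj : j ≠ 0 := by
      rintro rfl
      apply hne
      simp only [zero_add] at hjq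
      rw [hjq]
    obtain ⟨j, rfl⟩ := Nat.exists_eq_succ_of_ne_zero hj
    simp
  · intro h
    exact absurd (Finset.HasAntidiagonal.mem_antidiagonal.2 (zero_add i)) h

theorem bsum_succ_zero (n : ℕ) (φ : ℕ → ℝ≥0∞) : bsum (n + 1) φ 0 = bsum n φ 0 := by
  simp [bsum]

theorem bsum_succ_succ (n : ℕ) (φ : ℕ → ℝ≥0∞) (i : ℕ) :
    bsum (n + 1) φ (i + 1) = bsum n φ (i + 1) + bsum n φ i := by
  simp only [bsum, Finset.Nat.antidiagonal_succ, Finset.sum_cons, Finset.sum_map,
    Function.Embedding.coe_prodMap, Function.Embedding.coeFn_mk, Prod.map,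
    Function.Embedding.refl_apply]
  simp only [Nat.choose_zero_right, Nat.succ_eq_add_one, Nat.choose_succ_succ, Nat.cast_add,
    add_mul, Finset.sum_add_distrib]
  ring

theorem bsum_mono (n : ℕ) {φ ψ : ℕ → ℝ≥0∞} (h : ∀ i, φ i ≤ ψ i) (i : ℕ) :
    bsum n φ i ≤ bsum n ψ i :=
  Finset.sum_le_sum fun jq _ => mul_le_mul' le_rfl (h jq.2)

theorem bsum_const_mul (n : ℕ) (c : ℝ≥0∞) (φ : ℕ → ℝ≥0∞) (i : ℕ) :
    bsum n (fun q => c * φ q) i = c * bsum n φ i := by
  rw [bsum, bsum, Finset.mul_sum]
  refine Finset.sum_congr rfl fun jq _ => ?_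
  ring

/-- adding elements: the homology grows at most binomially. -/
theorem len_append_le (cs ys : List R) (i : ℕ) :
    L.len (F.H (cs ++ ys) i) ≤ bsum cs.length (fun q => L.len (F.H ys q)) i := by
  induction cs generalizing i with
  | nil => rw [List.length_nil, bsum_zero_left]; exact le_rfl
  | cons c cs ih =>
    rw [List.cons_append, List.length_cons]
    cases i with
    | zero =>
      rw [bsum_succ_zero]
      exact (F.len_cons_zero L c _).trans (ih 0)
    | succ i =>
      rw [bsum_succ_succ]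
      exact (F.len_cons_succ L c _ i).trans (add_le_add (ih (i + 1)) (ih i))

/-- one step up: if `g * y` kills `H xs i`, then `g ^ (m + 1) H xs i` is not longer than
`g ^ m H (y :: xs) (i + 1)`. -/
theorem len_pw_succ_le {g y : R} {xs : List R} {i : ℕ}
    (h : ∀ z : F.H xs i, (g * y) • z = 0) (m : ℕ) :
    L.len (pw g (m + 1) (F.H xs i)) ≤ L.len (pw g m (F.H (y :: xs) (i + 1))) := by
  refine (len_sub_mono L ?_).trans (len_map_le L (F.b y xs i) _)
  intro x hx
  obtain ⟨z, rfl⟩ := mem_pw.1 hx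
  obtain ⟨w, hw⟩ := F.tor y xs i (g • z) (by rw [smul_smul, mul_comm]; exact h z)
  refine ⟨g ^ m • w, mem_pw.2 ⟨w, rfl⟩, ?_⟩
  rw [map_smul, hw, smul_smul, pow_succ]

theorem ofList_le_append (ys cs : List R) : Ideal.ofList cs ≤ Ideal.ofList (ys ++ cs) := by
  rw [Ideal.ofList_append]
  exact le_sup_right

/-- going up with a whole list. -/
theorem len_pw_length_le {g : R} (ys : List R) {cs : List R}
    (h : ∀ y ∈ ys, g * y ∈ Ideal.ofList cs) (m i : ℕ) :
    L.len (pw g (m + ys.length) (F.H cs i)) ≤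
      L.len (pw g m (F.H (ys.reverse ++ cs) (i + ys.length))) := by
  induction ys generalizing cs i with
  | nil => exact le_rfl
  | cons y ys ih =>
    have h1 : ∀ z : F.H cs i, (g * y) • z = 0 := fun z =>
      F.kill_ofList (h y (by simp)) i z
    have h2 : ∀ y' ∈ ys, g * y' ∈ Ideal.ofList (y :: cs) := fun y' hy' =>
      ofList_le_append [y] cs (h y' (by simp [hy']))
    have h3 := ih h2 (i + 1)
    have h4 := F.len_pw_succ_le L h1 (m + ys.length)
    have e1 : m + (y :: ys).length = m + ys.length + 1 := by rw [List.length_cons]; ring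
    have e2 : i + (y :: ys).length = i + 1 + ys.length := by rw [List.length_cons]; ring
    have e3 : (y :: ys).reverse ++ cs = ys.reverse ++ (y :: cs) := by simp
    rw [e1, e2, e3]
    exact h4.trans h3

/-- **growth 1**: if `g y ∈ (cs)` for all `y ∈ ys`, then
`λ (g ^ |ys| H_i(cs)) ≤ ∑_{j + q = i + |ys|} (|cs| choose j) λ H_q(ys)`. -/
theorem growth1 {g : R} {cs ys : List R} (h : ∀ y ∈ ys, g * y ∈ Ideal.ofList cs) (i : ℕ) :
    L.len (pw g ys.length (F.H cs i)) ≤
      bsum cs.length (fun q => L.len (F.H ys q)) (i + ys.length) := by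
  have h1 := F.len_pw_length_le L ys h 0 i
  rw [zero_add] at h1
  refine h1.trans ((len_pw_le L g 0).trans ?_)
  have hp : (ys.reverse ++ cs).Perm (cs ++ ys) :=
    List.perm_append_comm.trans ((List.reverse_perm ys).append_left cs)
  rw [F.len_perm L hp]
  exact F.len_append_le L cs ys _

/-- **growth 1** with `g = 1`. -/
theorem growth1' {cs ys : List R} (h : ∀ y ∈ ys, y ∈ Ideal.ofList cs) (i : ℕ) :
    L.len (F.H cs i) ≤ bsum cs.length (fun q => L.len (F.H ys q)) (i + ys.length) := by
  have h1 := F.growth1 L (g := 1) (cs := cs) (ys := ys) (by simpa using h) i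
  rwa [len_pw_one] at h1

/-- one power. -/
theorem len_pow_cons (x : R) (xs : List R) (N i : ℕ) :
    L.len (F.H (x ^ N :: xs) i) ≤ N * L.len (F.H (x :: xs) i) := by
  induction N with
  | zero =>
    have : Subsingleton (F.H (x ^ 0 :: xs) i) := by
      refine ⟨fun z w => ?_⟩
      have h1 : (x ^ 0 : R) = 1 := pow_zero x
      have hz : (1 : R) • z = 0 := by
        have := F.kill (x ^ 0) xs i z
        rwa [← h1]
      have hw : (1 : R) • w = 0 := by
        have := F.kill (x ^ 0) xs i w
        rwa [← h1]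
      rw [one_smul] at hz hw
      rw [hz, hw]
    rw [len_subsingleton]
    exact zero_le
  | succ N ih =>
    obtain ⟨f, g, hfg⟩ := F.prod (x ^ N) x xs i
    have h1 := len_le_of_exact L f g hfg
    rw [← pow_succ] at h1
    refine h1.trans ?_
    have h2 : ((N + 1 : ℕ) : ℝ≥0∞) * L.len (F.H (x :: xs) i) =
        L.len (F.H (x :: xs) i) + N * L.len (F.H (x :: xs) i) := by
      push_cast
      ring
    rw [h2]
    exact add_le_add le_rfl ih

theorem len_map_pow_append (ys zs : List R) (N i : ℕ) :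
    L.len (F.H (ys.map (· ^ N) ++ zs) i) ≤ (N : ℝ≥0∞) ^ ys.length * L.len (F.H (ys ++ zs) i) := by
  induction ys generalizing zs with
  | nil =>
    rw [List.length_nil, pow_zero, one_mul]
    exact le_rfl
  | cons y ys ih =>
    have h1 : L.len (F.H (y ^ N :: (ys.map (· ^ N) ++ zs)) i) ≤
        N * L.len (F.H (y :: (ys.map (· ^ N) ++ zs)) i) := F.len_pow_cons L _ _ _ _
    have h2 : L.len (F.H (y :: (ys.map (· ^ N) ++ zs)) i) =
        L.len (F.H (ys.map (· ^ N) ++ (y :: zs)) i) :=
      F.len_perm L List.perm_middle.symm i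
    have h3 : L.len (F.H (ys ++ (y :: zs)) i) = L.len (F.H (y :: (ys ++ zs)) i) :=
      F.len_perm L List.perm_middle i
    have h4 := ih (y :: zs)
    rw [h3] at h4
    rw [List.map_cons, List.cons_append, List.cons_append, List.length_cons, pow_succ]
    refine h1.trans ?_
    rw [h2]
    refine (mul_le_mul' le_rfl h4).trans (le_of_eq ?_)
    ring

/-- **growth 2**: `λ H_i(ys ^ N) ≤ N ^ |ys| λ H_i(ys)`. -/
theorem growth2 (ys : List R) (N i : ℕ) :
    L.len (F.H (ys.map (· ^ N)) i) ≤ (N : ℝ≥0∞) ^ ys.length * L.len (F.H ys i) := by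
  have h := F.len_map_pow_append L ys [] N i
  rwa [List.append_nil, List.append_nil] at h

end KFam

theorem ofList_pow_le {R : Type u} [CommRing R] (cs : List R) (t : ℕ) :
    Ideal.ofList cs ^ (cs.length * t + 1) ≤ Ideal.ofList (cs.map (· ^ t)) := by
  induction cs with
  | nil => simp
  | cons c cs ih =>
    rw [Ideal.ofList_cons, List.map_cons, Ideal.ofList_cons, List.length_cons]
    have e : (cs.length + 1) * t + 1 = t + (cs.length * t + 1) := by ring
    rw [e]
    refine (Ideal.sup_pow_add_le_pow_sup_pow).trans ?_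
    rw [Ideal.span_singleton_pow]
    exact sup_le_sup le_rfl ih

namespace KFam

variable {R : Type u} [CommRing R] (F : KFam R) (L : ALen R)

/-- **growth 3**: if `g y ^ l ∈ (cs)` for all `y ∈ ys` then, with `n = |cs| t + 1`,
`λ (g ^ (n |ys|) H_i(cs ^ t)) ≤ (l n) ^ |ys| ∑_{j + q = i + |ys|} (|cs| choose j) λ H_q(ys)`. -/
theorem growth3 {g : R} {cs ys : List R} {l : ℕ} (h : ∀ y ∈ ys, g * y ^ l ∈ Ideal.ofList cs)
    (t i : ℕ) :
    L.len (pw (g ^ (cs.length * t + 1)) ys.length (F.H (cs.map (· ^ t)) i)) ≤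
      ((l * (cs.length * t + 1) : ℕ) : ℝ≥0∞) ^ ys.length *
        bsum cs.length (fun q => L.len (F.H ys q)) (i + ys.length) := by
  have h1 : ∀ y ∈ ys.map (· ^ (l * (cs.length * t + 1))),
      g ^ (cs.length * t + 1) * y ∈ Ideal.ofList (cs.map (· ^ t)) := by
    intro y' hy'
    obtain ⟨y, hy, rfl⟩ := List.mem_map.1 hy'
    refine ofList_pow_le cs t ?_
    have h2 := Ideal.pow_mem_pow (h y hy) (cs.length * t + 1)
    rwa [mul_pow, ← pow_mul] at h2
  have h2 := F.growth1 L h1 i
  rw [List.length_map, List.length_map] at h2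
  refine h2.trans ?_
  rw [← bsum_const_mul]
  exact bsum_mono _ (fun q => F.growth2 L ys _ q) _

/-- **growth 3** with `g = 1`. -/
theorem growth3' {cs ys : List R} {l : ℕ} (h : ∀ y ∈ ys, y ^ l ∈ Ideal.ofList cs) (t i : ℕ) :
    L.len (F.H (cs.map (· ^ t)) i) ≤
      ((l * (cs.length * t + 1) : ℕ) : ℝ≥0∞) ^ ys.length *
        bsum cs.length (fun q => L.len (F.H ys q)) (i + ys.length) := by
  have h1 := F.growth3 L (g := 1) (cs := cs) (ys := ys) (l := l) (by simpa using h) t i
  rwa [one_pow, len_pw_one] at h1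

end KFam

end Vale.Agent.P177.KG
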