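import Vale.Agent.P177.Perf.GrowthK

/-!
P177: long exact sequence of the Koszul homology `(KC M xs).H` in the module `M`, and
`H_i(x :: xs; M) = H_i(xs; M / x M)` if `x` is `M`-regular.
-/

namespace Vale.Agent.P177.KG

universe u

namespace Cx

variable {R : Type u} [CommRing R]

/-- morphisms of complexes. -/
structure Hom (A B : Cx R) where
  f : ∀ i, A.X i →ₗ[R] B.X i
  comm : ∀ i x, f i (A.d i x) = B.d i (f (i + 1) x)

variable {A B D : Cx R}

theorem Hom.map_Z (f : Hom A B) : ∀ (i : ℕ) (x : A.X i), x ∈ A.Z i → f.f i x ∈ B.Z i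
  | 0, _, _ => mem_Z_zero _ _
  | i + 1, x, hx => by
    rw [mem_Z_succ] at hx ⊢
    rw [← f.comm, hx, map_zero]

theorem Hom.map_B (f : Hom A B) (i : ℕ) (x : A.X i) (hx : x ∈ A.B i) : f.f i x ∈ B.B i := by
  obtain ⟨y, rfl⟩ := hx
  exact ⟨f.f (i + 1) y, (f.comm i y).symm⟩

/-- the map on homology. -/
def Hom.H (f : Hom A B) (i : ℕ) : A.H i →ₗ[R] B.H i := mapH (f.f i) (f.map_Z i) (f.map_B i)

theorem Hom.H_cl (f : Hom A B) (i : ℕ) (x : A.X i) (hx : x ∈ A.Z i) :
    f.H i (A.cl i ⟨x, hx⟩) = B.cl i ⟨f.f i x, f.map_Z i x hx⟩ := rfl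

/-- the cone of a morphism. -/
def Hom.cone (f : Hom A B) (y : R) : Hom (A.cone y) (B.cone y) where
  f
    | 0 => (f.f 0 : A.X 0 →ₗ[R] B.X 0)
    | i + 1 => (LinearMap.prodMap (f.f (i + 1)) (f.f i) :
        (A.X (i + 1) × A.X i) →ₗ[R] (B.X (i + 1) × B.X i))
  comm i x := by
    cases i with
    | zero =>
      obtain ⟨a, b, rfl⟩ := A.exists_pr y 0 x
      show f.f 0 (A.d 0 a + y • b) = B.d 0 (f.f 1 a) + y • f.f 0 b
      rw [map_add, map_smul, f.comm]
    | succ i =>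
      obtain ⟨a, b, rfl⟩ := A.exists_pr y (i + 1) x
      show ((f.f (i + 1) (A.d (i + 1) a + y • b), f.f i (- A.d i b)) : B.X (i + 1) × B.X i) =
        (B.d (i + 1) (f.f (i + 2) a) + y • f.f (i + 1) b, - B.d i (f.f (i + 1) b))
      rw [map_add, map_smul, f.comm, map_neg, f.comm]

theorem Hom.cone_p0 (f : Hom A B) (y : R) (a : A.X 0) :
    (f.cone y).f 0 (A.p0 y a) = B.p0 y (f.f 0 a) := rfl

theorem Hom.cone_pr (f : Hom A B) (y : R) (i : ℕ) (a : A.X (i + 1)) (b : A.X i) :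
    (f.cone y).f (i + 1) (A.pr y i a b) = B.pr y i (f.f (i + 1) a) (f.f i b) := rfl

/-- short exact sequences of complexes. -/
structure SES (f : Hom A B) (g : Hom B D) : Prop where
  inj : ∀ i, Function.Injective (f.f i)
  surj : ∀ i, Function.Surjective (g.f i)
  ex : ∀ i, Function.Exact (f.f i) (g.f i)

theorem SES.cone {f : Hom A B} {g : Hom B D} (h : SES f g) (y : R) :
    SES (f.cone y) (g.cone y) where
  inj i := by
    cases i with
    | zero => exact h.inj 0
    | succ i =>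
      intro x x' hx
      obtain ⟨a, b, rfl⟩ := A.exists_pr y i x
      obtain ⟨a', b', rfl⟩ := A.exists_pr y i x'
      rw [Hom.cone_pr, Hom.cone_pr, pr_inj] at hx
      rw [pr_inj]
      exact ⟨h.inj _ hx.1, h.inj _ hx.2⟩
  surj i := by
    cases i with
    | zero => exact h.surj 0
    | succ i =>
      intro x
      obtain ⟨a, b, rfl⟩ := D.exists_pr y i x
      obtain ⟨a', rfl⟩ := h.surj _ a
      obtain ⟨b', rfl⟩ := h.surj _ b
      exact ⟨B.pr y i a' b', rfl⟩
  ex i := by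
    cases i with
    | zero => exact h.ex 0
    | succ i =>
      intro x
      obtain ⟨a, b, rfl⟩ := B.exists_pr y i x
      rw [Hom.cone_pr, pr_eq_zero]
      constructor
      · rintro ⟨ha, hb⟩
        obtain ⟨a', rfl⟩ := (h.ex _ _).1 ha
        obtain ⟨b', rfl⟩ := (h.ex _ _).1 hb
        exact ⟨A.pr y i a' b', rfl⟩
      · rintro ⟨x', hx'⟩
        obtain ⟨a', b', rfl⟩ := A.exists_pr y i x'
        rw [Hom.cone_pr, pr_inj] at hx'
        obtain ⟨rfl, rfl⟩ := hx'
        exact ⟨(h.ex _ _).2 ⟨a', rfl⟩, (h.ex _ _).2 ⟨b', rfl⟩⟩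

section LES

variable {f : Hom A B} {g : Hom B D} (h : SES f g)
include h

/-- exactness at `H_i(B)`. -/
theorem SES.exact₂ (i : ℕ) : Function.Exact (f.H i) (g.H i) := by
  intro z
  constructor
  · obtain ⟨b, hb, rfl⟩ := B.cl_surj i z
    intro hz
    rw [Hom.H_cl, cl_eq_zero] at hz
    obtain ⟨c, hc⟩ := hz
    obtain ⟨b', rfl⟩ := h.surj (i + 1) c
    have h1 : g.f i (b - B.d i b') = 0 := by rw [map_sub, g.comm, hc, sub_self]
    obtain ⟨a, ha⟩ := (h.ex i _).1 h1
    have haZ : a ∈ A.Z i := by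
      cases i with
      | zero => exact mem_Z_zero _ _
      | succ i =>
        rw [mem_Z_succ] at hb ⊢
        apply h.inj i
        rw [f.comm, ha, map_sub, hb, B.dd, sub_zero, map_zero]
    refine ⟨A.cl i ⟨a, haZ⟩, ?_⟩
    rw [Hom.H_cl, cl_eq_cl, ha]
    exact ⟨-b', by rw [map_neg]; abel⟩
  · rintro ⟨w, rfl⟩
    obtain ⟨a, ha, rfl⟩ := A.cl_surj i w
    rw [Hom.H_cl, Hom.H_cl, cl_eq_zero]
    have h1 : g.f i (f.f i a) = 0 := (h.ex i _).2 ⟨a, rfl⟩
    rw [h1]
    exact Submodule.zero_mem _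

theorem SES.surj_zero : Function.Surjective (g.H 0) := by
  intro z
  obtain ⟨c, hc, rfl⟩ := D.cl_surj 0 z
  obtain ⟨b, rfl⟩ := h.surj 0 c
  exact ⟨B.cl 0 ⟨b, mem_Z_zero _ _⟩, rfl⟩

/-- the preimage in `B` of the cycles of `D`. -/
def PZ (g : Hom B D) (i : ℕ) : Submodule R (B.X (i + 1)) := (D.Z (i + 1)).comap (g.f (i + 1))

theorem SES.exists_lift (i : ℕ) (b : PZ g i) : ∃ a : A.X i, f.f i a = B.d i b.1 := by
  have h1 : g.f i (B.d i b.1) = 0 := by
    rw [g.comm]
    exact b.2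
  exact (h.ex i _).1 h1

/-- the connecting map on representatives. -/
noncomputable def SES.pre (i : ℕ) : PZ g i →ₗ[R] A.X i where
  toFun b := (h.exists_lift i b).choose
  map_add' b b' := by
    apply h.inj i
    rw [map_add, (h.exists_lift i (b + b')).choose_spec, (h.exists_lift i b).choose_spec,
      (h.exists_lift i b').choose_spec, Submodule.coe_add, map_add]
  map_smul' r b := by
    apply h.inj i
    rw [RingHom.id_apply, map_smul, (h.exists_lift i (r • b)).choose_spec,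
      (h.exists_lift i b).choose_spec, Submodule.coe_smul, map_smul]

theorem SES.pre_spec (i : ℕ) (b : PZ g i) : f.f i (h.pre i b) = B.d i b.1 :=
  (h.exists_lift i b).choose_spec

theorem SES.pre_mem (i : ℕ) (b : PZ g i) : h.pre i b ∈ A.Z i := by
  cases i with
  | zero => exact mem_Z_zero _ _
  | succ i =>
    rw [mem_Z_succ]
    apply h.inj i
    rw [f.comm, h.pre_spec, B.dd, map_zero]

/-- the connecting map on `PZ`. -/
noncomputable def SES.preH (i : ℕ) : PZ g i →ₗ[R] A.H i :=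
  A.cl i ∘ₗ (h.pre i).codRestrict (A.Z i) (h.pre_mem i)

omit h in
/-- the class in `H_{i+1}(D)`. -/
def gcl (g : Hom B D) (i : ℕ) : PZ g i →ₗ[R] D.H (i + 1) :=
  D.cl (i + 1) ∘ₗ ((g.f (i + 1)) ∘ₗ (PZ g i).subtype).codRestrict (D.Z (i + 1)) (fun b => b.2)

theorem SES.gcl_surjective (i : ℕ) : Function.Surjective (gcl g i) := by
  intro z
  obtain ⟨c, hc, rfl⟩ := D.cl_surj (i + 1) z
  obtain ⟨b, rfl⟩ := h.surj (i + 1) c
  exact ⟨⟨b, hc⟩, rfl⟩

theorem SES.ker_le (i : ℕ) : LinearMap.ker (gcl g i) ≤ LinearMap.ker (h.preH i) := by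
  rintro ⟨b, hb⟩ hx
  have h1 : g.f (i + 1) b ∈ D.B (i + 1) := D.cl_eq_zero.1 hx
  obtain ⟨c, hc⟩ := h1
  obtain ⟨b', rfl⟩ := h.surj (i + 2) c
  have h2 : g.f (i + 1) (b - B.d (i + 1) b') = 0 := by rw [map_sub, g.comm, hc, sub_self]
  obtain ⟨a, ha⟩ := (h.ex (i + 1) _).1 h2
  refine A.cl_eq_zero.2 ⟨a, ?_⟩
  apply h.inj i
  show f.f i (A.d i a) = f.f i (h.pre i ⟨b, hb⟩)
  rw [h.pre_spec, f.comm, ha, map_sub, B.dd, sub_zero]

/-- the connecting homomorphism. -/
noncomputable def SES.delta (i : ℕ) : D.H (i + 1) →ₗ[R] A.H i :=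
  ((LinearMap.ker (gcl g i)).liftQ (h.preH i) (h.ker_le i)) ∘ₗ
    ((gcl g i).quotKerEquivOfSurjective (h.gcl_surjective i)).symm.toLinearMap

theorem SES.delta_gcl (i : ℕ) (b : PZ g i) : h.delta i (gcl g i b) = h.preH i b := by
  have h1 : ((gcl g i).quotKerEquivOfSurjective (h.gcl_surjective i)).symm (gcl g i b) =
      (LinearMap.ker (gcl g i)).mkQ b := by
    rw [LinearEquiv.symm_apply_eq]
    rfl
  show ((LinearMap.ker (gcl g i)).liftQ (h.preH i) (h.ker_le i)) _ = _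
  rw [LinearEquiv.coe_coe, h1]
  rfl

/-- exactness at `H_{i+1}(D)`. -/
theorem SES.exact₃ (i : ℕ) : Function.Exact (g.H (i + 1)) (h.delta i) := by
  intro z
  constructor
  · obtain ⟨b, rfl⟩ := h.gcl_surjective i z
    intro hz
    rw [h.delta_gcl] at hz
    obtain ⟨a, ha⟩ := A.cl_eq_zero.1 hz
    have ha' : f.f i (A.d i a) = f.f i (h.pre i b) := congrArg (f.f i) ha
    rw [h.pre_spec, f.comm] at ha'
    have h1 : b.1 - f.f (i + 1) a ∈ B.Z (i + 1) := by
      rw [mem_Z_succ, map_sub, ha', sub_self]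
    refine ⟨B.cl (i + 1) ⟨_, h1⟩, ?_⟩
    rw [Hom.H_cl]
    refine D.cl_eq_cl.2 ?_
    have h2 : g.f (i + 1) (f.f (i + 1) a) = 0 := (h.ex _ _).2 ⟨a, rfl⟩
    rw [map_sub, h2, sub_zero]
    show g.f (i + 1) b.1 - g.f (i + 1) b.1 ∈ _
    rw [sub_self]
    exact Submodule.zero_mem _
  · rintro ⟨w, rfl⟩
    obtain ⟨b, hb, rfl⟩ := B.cl_surj (i + 1) w
    have hb' : b ∈ PZ g i := g.map_Z (i + 1) b hb
    have e : g.H (i + 1) (B.cl (i + 1) ⟨b, hb⟩) = gcl g i ⟨b, hb'⟩ := rfl
    rw [e, h.delta_gcl]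
    refine A.cl_eq_zero.2 ?_
    show h.pre i ⟨b, hb'⟩ ∈ A.B i
    have h1 : h.pre i ⟨b, hb'⟩ = 0 := by
      apply h.inj i
      rw [h.pre_spec, map_zero]
      exact hb
    rw [h1]
    exact Submodule.zero_mem _

/-- exactness at `H_i(A)`. -/
theorem SES.exact₁ (i : ℕ) : Function.Exact (h.delta i) (f.H i) := by
  intro z
  constructor
  · obtain ⟨a, ha, rfl⟩ := A.cl_surj i z
    intro hz
    rw [Hom.H_cl, cl_eq_zero] at hz
    obtain ⟨b, hb⟩ := hz
    have hb' : b ∈ PZ g i := by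
      show g.f (i + 1) b ∈ D.Z (i + 1)
      rw [mem_Z_succ, ← g.comm, hb]
      exact (h.ex i _).2 ⟨a, rfl⟩
    refine ⟨gcl g i ⟨b, hb'⟩, ?_⟩
    rw [h.delta_gcl]
    refine A.cl_eq_cl.2 ?_
    have h1 : h.pre i ⟨b, hb'⟩ = a := by
      apply h.inj i
      rw [h.pre_spec]
      exact hb
    show h.pre i ⟨b, hb'⟩ - a ∈ _
    rw [h1, sub_self]
    exact Submodule.zero_mem _
  · rintro ⟨w, rfl⟩
    obtain ⟨b, rfl⟩ := h.gcl_surjective i w
    rw [h.delta_gcl]
    have e : h.preH i b = A.cl i ⟨h.pre i b, h.pre_mem i b⟩ := rfl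
    rw [e, Hom.H_cl]
    refine B.cl_eq_zero.2 ?_
    rw [h.pre_spec]
    exact ⟨b.1, rfl⟩

end LES

/-! ### cones of an injective multiplication -/

section ConeQuot

variable {f : Hom A A} {g : Hom A D} (h : SES f g) (x : R) (hf : ∀ i a, f.f i a = x • a)
include h hf

theorem SES.g_smul (i : ℕ) (a : A.X i) : g.f i (x • a) = 0 := by
  rw [← hf]
  exact (h.ex i _).2 ⟨a, rfl⟩

theorem SES.smul_inj (i : ℕ) {a : A.X i} (ha : x • a = 0) : a = 0 := by
  rw [← hf] at ha
  exact h.inj i (by rw [ha, map_zero])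

omit h hf in
/-- `(a, b) ↦ g a`. -/
def qf (g : Hom A D) (x : R) : ∀ i, (A.cone x).X i →ₗ[R] D.X i
  | 0 => (g.f 0 : A.X 0 →ₗ[R] D.X 0)
  | i + 1 => ((g.f (i + 1)) ∘ₗ LinearMap.fst R _ _ : (A.X (i + 1) × A.X i) →ₗ[R] D.X (i + 1))

omit h hf in
theorem qf_p0 (g : Hom A D) (x : R) (a : A.X 0) : qf g x 0 (A.p0 x a) = g.f 0 a := rfl

omit h hf in
theorem qf_pr (g : Hom A D) (x : R) (i : ℕ) (a : A.X (i + 1)) (b : A.X i) :
    qf g x (i + 1) (A.pr x i a b) = g.f (i + 1) a := rfl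

/-- the map of complexes `cone x A → D`. -/
def SES.q : Hom (A.cone x) D where
  f := qf g x
  comm i z := by
    cases i with
    | zero =>
      obtain ⟨a, b, rfl⟩ := A.exists_pr x 0 z
      rw [d_pr_zero, qf_p0, qf_pr, map_add, h.g_smul x hf, add_zero, g.comm]
    | succ i =>
      obtain ⟨a, b, rfl⟩ := A.exists_pr x (i + 1) z
      rw [d_pr_succ, qf_pr, qf_pr, map_add, h.g_smul x hf, add_zero, g.comm]

theorem SES.q_bijective (i : ℕ) : Function.Bijective ((h.q x hf).H i) := by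
  constructor
  · rw [injective_iff_map_eq_zero]
    intro z hz
    obtain ⟨w, hw, rfl⟩ := (A.cone x).cl_surj i z
    rw [Hom.H_cl, cl_eq_zero] at hz
    refine (A.cone x).cl_eq_zero.2 ?_
    cases i with
    | zero =>
      obtain ⟨a, rfl⟩ := A.exists_p0 x w
      obtain ⟨c, hc⟩ := hz
      obtain ⟨a', rfl⟩ := h.surj 1 c
      have h1 : g.f 0 (a - A.d 0 a') = 0 := by
        rw [map_sub, g.comm, hc]
        exact sub_self _
      obtain ⟨b, hb⟩ := (h.ex 0 _).1 h1
      rw [hf] at hb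
      exact A.mem_B_cone_zero.2 ⟨a', b, by rw [hb, add_sub_cancel]⟩
    | succ i =>
      obtain ⟨a, b, rfl⟩ := A.exists_pr x i w
      obtain ⟨c, hc⟩ := hz
      obtain ⟨a', rfl⟩ := h.surj (i + 2) c
      have h1 : g.f (i + 1) (a - A.d (i + 1) a') = 0 := by
        rw [map_sub, g.comm, hc]
        exact sub_self _
      obtain ⟨b', hb'⟩ := (h.ex (i + 1) _).1 h1
      rw [hf] at hb'
      have ha : A.d (i + 1) a' + x • b' = a := by rw [hb', add_sub_cancel]
      refine A.mem_B_cone.2 ⟨a', b', ha, ?_⟩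
      obtain ⟨-, h2⟩ := A.mem_Z_cone.1 hw
      rw [← ha, map_add, A.dd, zero_add, map_smul, ← smul_add] at h2
      exact neg_eq_of_add_eq_zero_right (h.smul_inj x hf i h2)
  · intro z
    obtain ⟨c, hc, rfl⟩ := D.cl_surj i z
    obtain ⟨a, rfl⟩ := h.surj i c
    cases i with
    | zero => exact ⟨(A.cone x).cl 0 ⟨A.p0 x a, mem_Z_zero _ _⟩, rfl⟩
    | succ i =>
      have h1 : g.f i (A.d i a) = 0 := by
        rw [g.comm]
        exact hc
      obtain ⟨b, hb⟩ := (h.ex i _).1 h1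
      rw [hf] at hb
      refine ⟨(A.cone x).cl (i + 1) ⟨A.pr x i a (-b), ?_⟩, rfl⟩
      refine A.mem_Z_cone.2 ⟨?_, ?_⟩
      · refine Submodule.neg_mem _ ?_
        cases i with
        | zero => exact mem_Z_zero _ _
        | succ i =>
          rw [mem_Z_succ]
          refine h.smul_inj x hf i ?_
          rw [← map_smul, hb, A.dd]
      · rw [smul_neg, hb, add_neg_cancel]

end ConeQuot

end Cx

/-! ### Koszul complexes -/

section Kos

variable {R : Type u} [CommRing R] {M N K : Type u} [AddCommGroup M] [Module R M]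
  [AddCommGroup N] [Module R N] [AddCommGroup K] [Module R K]

/-- the map `M → N` in degree `0`. -/
def ptMap (f : M →ₗ[R] N) : Cx.Hom (pt R M) (pt R N) where
  f
    | 0 => (f : M →ₗ[R] N)
    | _ + 1 => (LinearMap.id : PUnit.{u + 1} →ₗ[R] PUnit.{u + 1})
  comm i _ := by
    cases i with
    | zero => exact map_zero f
    | succ i => rfl

/-- functoriality of the Koszul complex. -/
def KCmap (f : M →ₗ[R] N) : ∀ xs : List R, Cx.Hom (KC M xs) (KC N xs)
  | [] => ptMap f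
  | x :: xs => (KCmap f xs).cone x

theorem KCses {f : M →ₗ[R] N} {g : N →ₗ[R] K} (hf : Function.Injective f)
    (hg : Function.Surjective g) (hfg : Function.Exact f g) (xs : List R) :
    Cx.SES (KCmap f xs) (KCmap g xs) := by
  induction xs with
  | nil =>
    refine ⟨fun i => ?_, fun i => ?_, fun i => ?_⟩
    · cases i with
      | zero => exact hf
      | succ i => exact fun _ _ _ => rfl
    · cases i with
      | zero => exact hg
      | succ i => exact fun _ => ⟨PUnit.unit, rfl⟩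
    · cases i with
      | zero => exact hfg
      | succ i => exact fun _ => ⟨fun _ => ⟨PUnit.unit, rfl⟩, fun _ => rfl⟩
  | cons x xs ih => exact ih.cone x

theorem KCmap_smul (r : R) (f : M →ₗ[R] M) (hf : ∀ m, f m = r • m) (xs : List R) :
    ∀ (i : ℕ) (a : (KC M xs).X i), (KCmap f xs).f i a = r • a := by
  induction xs with
  | nil =>
    intro i a
    cases i with
    | zero => exact hf a
    | succ i => rfl
  | cons x xs ih =>
    intro i a
    cases i with
    | zero => exact ih 0 a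
    | succ i =>
      obtain ⟨a, b, rfl⟩ := (KC M xs).exists_pr x i a
      have h1 := ih (i + 1) a
      have h2 := ih i b
      have h3 : (KCmap f (x :: xs)).f (i + 1) ((KC M xs).pr x i a b) =
          (KC M xs).pr x i ((KCmap f xs).f (i + 1) a) ((KCmap f xs).f i b) := rfl
      rw [h3, h1, h2]
      rfl

/-- `H_i(x :: xs; M) ≃ H_i(xs; M / x M)` for `x` regular on `M`; here `K = M / x M`. -/
noncomputable def KC_cons_equiv (x : R) (hx : ∀ m : M, x • m = 0 → m = 0) (g : M →ₗ[R] K)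
    (hg : Function.Surjective g) (hk : ∀ m, g m = 0 ↔ ∃ m', x • m' = m) (xs : List R) (i : ℕ) :
    (KC M (x :: xs)).H i ≃ₗ[R] (KC K xs).H i := by
  have hinj : Function.Injective (LinearMap.lsmul R M x) := by
    rw [injective_iff_map_eq_zero]
    exact hx
  have hex : Function.Exact (LinearMap.lsmul R M x) g := by
    intro m
    exact hk m
  have h := KCses hinj hg hex xs
  exact LinearEquiv.ofBijective _ (h.q_bijective x
    (fun i a => KCmap_smul x (LinearMap.lsmul R M x) (fun m => rfl) xs i a) i)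

end Kos

section Len

variable {R : Type u} [CommRing R] (L : ALen R) {M N K : Type u} [AddCommGroup M] [Module R M]
  [AddCommGroup N] [Module R N] [AddCommGroup K] [Module R K] {f : M →ₗ[R] N} {g : N →ₗ[R] K}
  (hf : Function.Injective f) (hg : Function.Surjective g) (hfg : Function.Exact f g)
include hf hg hfg

theorem KC_len_mid (xs : List R) (i : ℕ) :
    L.len ((KC N xs).H i) ≤ L.len ((KC M xs).H i) + L.len ((KC K xs).H i) :=
  len_le_of_exact L _ _ ((KCses hf hg hfg xs).exact₂ i)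

theorem KC_len_right (xs : List R) (i : ℕ) :
    L.len ((KC K xs).H (i + 1)) ≤ L.len ((KC N xs).H (i + 1)) + L.len ((KC M xs).H i) :=
  len_le_of_exact L _ _ ((KCses hf hg hfg xs).exact₃ i)

theorem KC_len_right_zero (xs : List R) :
    L.len ((KC K xs).H 0) ≤ L.len ((KC N xs).H 0) :=
  len_le_of_surj L _ (KCses hf hg hfg xs).surj_zero

theorem KC_len_left (xs : List R) (i : ℕ) :
    L.len ((KC M xs).H i) ≤ L.len ((KC K xs).H (i + 1)) + L.len ((KC N xs).H i) :=
  len_le_of_exact L _ _ ((KCses hf hg hfg xs).exact₁ i)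

end Len

end Vale.Agent.P177.KG
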