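import Mathlib

/-!
# P177 / Perf : a uniform Ratliff lemma for two ideals

For ideals `I`, `K` of a noetherian domain and `I ≠ 0` one has
`(I^(n+r) K^m : I^r) = I^n K^m` for all large `n` and all `m`, `r`.
-/

namespace Vale.Agent.P177.Perf

open Polynomial

section one

variable {B : Type*} [CommRing B] [IsNoetherianRing B]

/-- one ideal: if `y ∈ I^n` and `I y ⊆ a I^n`, then `y ∈ a I^(n-1)`, for large `n` -/
theorem ratliff_one (I : Ideal B) (a : B) : ∃ k : ℕ, ∀ n, k ≤ n → ∀ y ∈ I ^ (n + 1),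
    (∀ z ∈ I, ∃ w ∈ I ^ (n + 1), z * y = a * w) → ∃ w ∈ I ^ n, y = a * w := by
  classical
  let S := reesAlgebra I
  let D : Ideal S :=
    { carrier := {f | ∀ i, ∀ z ∈ I, ∃ w ∈ I ^ i, z * (f : B[X]).coeff i = a * w}
      add_mem' := by
        intro f g hf hg i z hz
        obtain ⟨w, hw, h1⟩ := hf i z hz
        obtain ⟨w', hw', h2⟩ := hg i z hz
        refine ⟨w + w', Ideal.add_mem _ hw hw', ?_⟩
        have : ((f + g : S) : B[X]).coeff i = (f : B[X]).coeff i + (g : B[X]).coeff i := by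
          simp
        rw [this, mul_add, mul_add, h1, h2]
      zero_mem' := by
        intro i z _
        exact ⟨0, Ideal.zero_mem _, by simp⟩
      smul_mem' := by
        intro f g hg i z hz
        have h : ∀ x ∈ Finset.HasAntidiagonal.antidiagonal i, ∃ w ∈ I ^ i,
            z * ((f : B[X]).coeff x.1 * (g : B[X]).coeff x.2) = a * w := by
          intro x hx
          obtain ⟨w, hw, h1⟩ := hg x.2 z hz
          refine ⟨(f : B[X]).coeff x.1 * w, ?_, ?_⟩
          · rw [← Finset.HasAntidiagonal.mem_antidiagonal.1 hx, pow_add]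
            exact Ideal.mul_mem_mul (f.2 x.1) hw
          · calc z * ((f : B[X]).coeff x.1 * (g : B[X]).coeff x.2)
                = (f : B[X]).coeff x.1 * (z * (g : B[X]).coeff x.2) := by ring
              _ = a * ((f : B[X]).coeff x.1 * w) := by rw [h1]; ring
        choose! w hw h1 using h
        refine ⟨∑ x ∈ Finset.HasAntidiagonal.antidiagonal i, w x, Ideal.sum_mem _ hw, ?_⟩
        have : ((f • g : S) : B[X]).coeff i =
            ∑ x ∈ Finset.HasAntidiagonal.antidiagonal i, (f : B[X]).coeff x.1 * (g : B[X]).coeff x.2 := by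
          rw [smul_eq_mul]
          simp [Polynomial.coeff_mul]
        rw [this, Finset.mul_sum, Finset.mul_sum]
        exact Finset.sum_congr rfl h1 }
  obtain ⟨F, hF⟩ : D.FG := (isNoetherianRing_iff_ideal_fg S).1 inferInstance D
  let k := F.sup fun f => (f : B[X]).natDegree
  refine ⟨k, fun n hn y hy hy' => ?_⟩
  let m : S := ⟨monomial (n + 1) y, reesAlgebra.monomial_mem.2 hy⟩
  have hm : m ∈ D := by
    intro i z hz
    by_cases hi : i = n + 1
    · subst hi
      simpa [m] using hy' z hz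
    · refine ⟨0, Ideal.zero_mem _, ?_⟩
      simp [m, coeff_monomial, Ne.symm hi]
  rw [← hF] at hm
  have key : ∀ f : S, f ∈ Ideal.span (F : Set S) → ∃ w ∈ I ^ n, (f : B[X]).coeff (n + 1) = a * w := by
    intro f hf
    suffices h0 : ∀ g : S, ∃ w ∈ I ^ n, ((g * f : S) : B[X]).coeff (n + 1) = a * w by
      simpa using h0 1
    refine Submodule.span_induction (p := fun f _ => ∀ g : S, ∃ w ∈ I ^ n,
      ((g * f : S) : B[X]).coeff (n + 1) = a * w) ?_ ?_ ?_ ?_ hf
    · intro h hh g
      have hhD : h ∈ D := by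
        rw [← hF]; exact Ideal.subset_span hh
      have hdeg : (h : B[X]).natDegree ≤ k := Finset.le_sup (f := fun f : S => (f : B[X]).natDegree) hh
      have h2 : ∀ x ∈ Finset.HasAntidiagonal.antidiagonal (n + 1), ∃ w ∈ I ^ n,
          (g : B[X]).coeff x.1 * (h : B[X]).coeff x.2 = a * w := by
        intro x hx
        have hx' := Finset.HasAntidiagonal.mem_antidiagonal.1 hx
        by_cases hx2 : k < x.2
        · refine ⟨0, Ideal.zero_mem _, ?_⟩
          rw [coeff_eq_zero_of_natDegree_lt (lt_of_le_of_lt hdeg hx2)]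
          simp
        · obtain ⟨j, hj⟩ : ∃ j, x.1 = j + 1 := ⟨x.1 - 1, by omega⟩
          have hg := g.2 x.1
          rw [hj, pow_succ] at hg
          have h3 : ∀ u ∈ I ^ j * I, ∃ w ∈ I ^ n, u * (h : B[X]).coeff x.2 = a * w := by
            intro u hu
            refine Submodule.mul_induction_on hu ?_ ?_
            · intro c hc z hz
              obtain ⟨w, hw, h4⟩ := hhD x.2 z hz
              refine ⟨c * w, ?_, ?_⟩
              · have : n = j + x.2 := by omega
                rw [this, pow_add]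
                exact Ideal.mul_mem_mul hc hw
              · rw [mul_assoc, h4]; ring
            · rintro c d ⟨w, hw, h4⟩ ⟨w', hw', h5⟩
              exact ⟨w + w', Ideal.add_mem _ hw hw', by rw [add_mul, h4, h5]; ring⟩
          have := h3 _ hg
          rwa [← hj] at this
      choose! w hw h3 using h2
      refine ⟨∑ x ∈ Finset.HasAntidiagonal.antidiagonal (n + 1), w x, Ideal.sum_mem _ hw, ?_⟩
      have : ((g * h : S) : B[X]).coeff (n + 1) =
          ∑ x ∈ Finset.HasAntidiagonal.antidiagonal (n + 1), (g : B[X]).coeff x.1 * (h : B[X]).coeff x.2 := by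
        simp [Polynomial.coeff_mul]
      rw [this, Finset.mul_sum]
      exact Finset.sum_congr rfl h3
    · intro g
      exact ⟨0, Ideal.zero_mem _, by simp⟩
    · intro x y _ _ hx hy g
      obtain ⟨w, hw, h1⟩ := hx g
      obtain ⟨w', hw', h2⟩ := hy g
      refine ⟨w + w', Ideal.add_mem _ hw hw', ?_⟩
      rw [mul_add]
      have : ((g * x + g * y : S) : B[X]).coeff (n + 1) =
          ((g * x : S) : B[X]).coeff (n + 1) + ((g * y : S) : B[X]).coeff (n + 1) := by simp
      rw [this, h1, h2]; ring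
    · intro c x _ hx g
      have := hx (g * c)
      rwa [smul_eq_mul, ← mul_assoc]
  obtain ⟨w, hw, h⟩ := key m hm
  exact ⟨w, hw, by simpa [m] using h⟩

end one

section two

variable {R : Type*} [CommRing R] [IsNoetherianRing R]

omit [IsNoetherianRing R] in
theorem coeff_mem_of_mem_map {K I : Ideal R} {f : reesAlgebra K}
    (hf : f ∈ I.map (algebraMap R (reesAlgebra K))) (m : ℕ) :
    (f : R[X]).coeff m ∈ I * K ^ m := by
  refine Submodule.span_induction
    (p := fun (f : reesAlgebra K) _ => ∀ m, (f : R[X]).coeff m ∈ I * K ^ m)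
    ?_ ?_ ?_ ?_ hf m
  · rintro _ ⟨z, hz, rfl⟩ m
    have : ((algebraMap R (reesAlgebra K) z : reesAlgebra K) : R[X]) = C z := rfl
    rw [this, coeff_C]
    split_ifs with h
    · subst h; simpa using hz
    · exact Ideal.zero_mem _
  · intro m; simp
  · intro x y _ _ hx hy m
    have : ((x + y : reesAlgebra K) : R[X]).coeff m = (x : R[X]).coeff m + (y : R[X]).coeff m := by
      simp
    rw [this]
    exact Ideal.add_mem _ (hx m) (hy m)
  · intro c x _ hx m
    have : ((c • x : reesAlgebra K) : R[X]).coeff m =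
        ∑ t ∈ Finset.HasAntidiagonal.antidiagonal m, (c : R[X]).coeff t.1 * (x : R[X]).coeff t.2 := by
      rw [smul_eq_mul]
      simp [Polynomial.coeff_mul]
    rw [this]
    refine Ideal.sum_mem _ fun t ht => ?_
    rw [← Finset.HasAntidiagonal.mem_antidiagonal.1 ht, pow_add]
    have h1 := Ideal.mul_mem_mul (c.2 t.1) (hx t.2)
    have h2 : K ^ t.1 * (I * K ^ t.2) = I * (K ^ t.1 * K ^ t.2) := by ring
    rwa [h2] at h1

omit [IsNoetherianRing R] in
theorem monomial_mem_map {K I : Ideal R} {m : ℕ} {y : R} (hy : y ∈ I * K ^ m) :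
    ∃ h : (monomial m y : R[X]) ∈ reesAlgebra K,
      (⟨monomial m y, h⟩ : reesAlgebra K) ∈ I.map (algebraMap R (reesAlgebra K)) := by
  refine Submodule.mul_induction_on hy ?_ ?_
  · intro u hu v hv
    have h1 : (monomial m v : R[X]) ∈ reesAlgebra K := reesAlgebra.monomial_mem.2 hv
    have h2 : (monomial m (u * v) : R[X]) ∈ reesAlgebra K :=
      reesAlgebra.monomial_mem.2 (Ideal.mul_mem_left _ _ hv)
    refine ⟨h2, ?_⟩
    have : (⟨monomial m (u * v), h2⟩ : reesAlgebra K) =
        ⟨monomial m v, h1⟩ * algebraMap R (reesAlgebra K) u := by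
      apply Subtype.ext
      change monomial m (u * v) = monomial m v * C u
      rw [monomial_mul_C, mul_comm]
    rw [this]
    exact Ideal.mul_mem_left _ _ (Ideal.mem_map_of_mem _ hu)
  · rintro x y ⟨h1, h2⟩ ⟨h3, h4⟩
    have h5 : (monomial m (x + y) : R[X]) = monomial m x + monomial m y := by simp
    refine ⟨h5 ▸ Subalgebra.add_mem _ h1 h3, ?_⟩
    have : (⟨monomial m (x + y), h5 ▸ Subalgebra.add_mem _ h1 h3⟩ : reesAlgebra K) =
        ⟨monomial m x, h1⟩ + ⟨monomial m y, h3⟩ := by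
      apply Subtype.ext
      simp
    rw [this]
    exact Ideal.add_mem _ h2 h4

/-- two ideals -/
theorem ratliff_two (I K : Ideal R) (a : R) : ∃ k : ℕ, ∀ n, k ≤ n → ∀ m, ∀ y ∈ I ^ (n + 1) * K ^ m,
    (∀ z ∈ I, ∃ w ∈ I ^ (n + 1) * K ^ m, z * y = a * w) → ∃ w ∈ I ^ n * K ^ m, y = a * w := by
  obtain ⟨k, hk⟩ := ratliff_one (I.map (algebraMap R (reesAlgebra K)))
    (algebraMap R (reesAlgebra K) a)
  refine ⟨k, fun n hn m y hy hy' => ?_⟩
  obtain ⟨h1, h2⟩ := monomial_mem_map hy
  rw [Ideal.map_pow] at h2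
  obtain ⟨w, hw, h3⟩ := hk n hn ⟨monomial m y, h1⟩ h2 (by
    intro z hz
    refine Submodule.span_induction (p := fun z _ => ∃ w ∈ (I.map (algebraMap R (reesAlgebra K))) ^
      (n + 1), z * ⟨monomial m y, h1⟩ = algebraMap R (reesAlgebra K) a * w) ?_ ?_ ?_ ?_ hz
    · rintro _ ⟨z, hz, rfl⟩
      obtain ⟨w, hw, h4⟩ := hy' z hz
      obtain ⟨h5, h6⟩ := monomial_mem_map hw
      rw [Ideal.map_pow] at h6
      refine ⟨_, h6, ?_⟩
      apply Subtype.ext
      change C z * monomial m y = C a * monomial m w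
      rw [C_mul_monomial, C_mul_monomial, h4]
    · exact ⟨0, Ideal.zero_mem _, by simp⟩
    · rintro x x' _ _ ⟨w, hw, h4⟩ ⟨w', hw', h5⟩
      exact ⟨w + w', Ideal.add_mem _ hw hw', by rw [add_mul, h4, h5, mul_add]⟩
    · rintro c x _ ⟨w, hw, h4⟩
      refine ⟨c * w, Ideal.mul_mem_left _ _ hw, ?_⟩
      rw [smul_eq_mul, mul_assoc, h4]; ring)
  rw [← Ideal.map_pow] at hw
  refine ⟨(w : R[X]).coeff m, coeff_mem_of_mem_map hw m, ?_⟩
  have h4 := congrArg (fun f : reesAlgebra K => (f : R[X]).coeff m) h3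
  have h5 : ((algebraMap R (reesAlgebra K) a * w : reesAlgebra K) : R[X]) = C a * (w : R[X]) := rfl
  simp only [h5, coeff_C_mul] at h4
  simpa using h4

/-- the colon lemma -/
theorem colon_large [IsDomain R] (I K : Ideal R) (hI : I ≠ ⊥) : ∃ k : ℕ, ∀ n, k ≤ n →
    ∀ m r : ℕ, ∀ x : R, (∀ z ∈ I ^ r, z * x ∈ I ^ (n + r) * K ^ m) → x ∈ I ^ n * K ^ m := by
  obtain ⟨a, haI, ha⟩ := Submodule.exists_mem_ne_zero_of_ne_bot hI
  obtain ⟨k, hk⟩ := ratliff_two I K a
  have one : ∀ n, k ≤ n → ∀ m, ∀ x : R, (∀ z ∈ I, z * x ∈ I ^ (n + 1) * K ^ m) →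
      x ∈ I ^ n * K ^ m := by
    intro n hn m x hx
    obtain ⟨w, hw, h⟩ := hk n hn m (a * x) (hx a haI) (fun z hz => ⟨z * x, hx z hz, by ring⟩)
    rwa [mul_left_cancel₀ ha h]
  refine ⟨k, fun n hn m r => ?_⟩
  induction r with
  | zero =>
    intro x hx
    simpa using hx 1 (by simp)
  | succ r ih =>
    intro x hx
    refine ih x fun z hz => one (n + r) (by omega) m (z * x) fun z' hz' => ?_
    have := hx (z' * z) (by
      rw [pow_succ, mul_comm (I ^ r)]
      exact Ideal.mul_mem_mul hz' hz)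
    rwa [mul_assoc] at this

end two

end Vale.Agent.P177.Perf
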