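import Vale.Agent.P177.Perf.WJ2

/-!
Elements of `W(J)` which vanish modulo `(p - [t], p ^ (I + 1))` in `W(C)` vanish, up to the
multiplication by `[b]`, modulo `(p - [t], p ^ m)` in `W(J)`.
-/

namespace Vale.Agent.P177.WJ

open WittVector

set_option linter.unusedSectionVars false

variable {p : ℕ} [hp : Fact (Nat.Prime p)] {C : Type*} [CommRing C] [CharP C p] [PerfectRing C p]

/-- the element `-∑_{j ≤ I} p ^ j [t ^ (I - j)] x`. -/
noncomputable def kap (t : C) (I : ℕ) (x : WittVector p C) : WittVector p C :=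
  -(∑ j ∈ Finset.range (I + 1), (p : WittVector p C) ^ j * teichmuller p t ^ (I - j)) * x

theorem kap_mul (t : C) (I : ℕ) (x c : WittVector p C) : kap t I (c * x) = c * kap t I x := by
  simp only [kap]; ring

theorem kap_eq (t : C) (I : ℕ) (x : WittVector p C) :
    ((p : WittVector p C) - teichmuller p t) * kap t I x - teichmuller p t ^ (I + 1) * x =
      (p : WittVector p C) ^ (I + 1) * (-x) := by
  have hgeom : (∑ j ∈ Finset.range (I + 1), (p : WittVector p C) ^ j *
      teichmuller p t ^ (I - j)) * ((p : WittVector p C) - teichmuller p t) =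
      (p : WittVector p C) ^ (I + 1) - teichmuller p t ^ (I + 1) := by
    have := Commute.geom_sum₂_mul (Commute.all (p : WittVector p C) (teichmuller p t)) (I + 1)
    simpa using this
  have : ((p : WittVector p C) - teichmuller p t) * kap t I x =
      -((p : WittVector p C) ^ (I + 1) - teichmuller p t ^ (I + 1)) * x := by
    rw [← hgeom, kap]; ring
  rw [this]; ring

theorem kap_mem {J : Ideal C} (hJ : IsPerf p J) (t : C) (I : ℕ) {x : WittVector p C}
    (hx : x ∈ WJ hJ) : kap t I x ∈ WJ hJ := Ideal.mul_mem_left _ _ hx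

/-- an element of `W(J)` divisible by `p ^ N` in `W(C)` is so in `W(J)`. -/
theorem exists_of_dvd {J : Ideal C} (hJ : IsPerf p J) {x : WittVector p C} (hx : x ∈ WJ hJ) (N : ℕ)
    (h : (p : WittVector p C) ^ N ∣ x) : ∃ y ∈ WJ hJ, x = (p : WittVector p C) ^ N * y := by
  obtain ⟨y, rfl⟩ := h
  exact ⟨y, (p_pow_mul_mem hJ N).1 hx, rfl⟩

/-- One step: divisibility by a further power of `[t]`. -/
theorem key_step_J {J : Ideal C} (hJ : IsPerf p J) (t : C) {x y : WittVector p C} (hx : x ∈ WJ hJ)
    (I l m : ℕ) (hl : l < m) (hm : m ≤ I + 1) {a : C} (ha : a ∈ J) (hI : dig y I = t ^ m * a)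
    (hy : (p : WittVector p C) ^ (I + 1) ∣
      ((p : WittVector p C) - teichmuller p t) * y - teichmuller p t ^ (I + 1) * x)
    {v : WittVector p C} (hv : v ∈ WJ hJ)
    (hyv : (p : WittVector p C) ^ (I + 1) ∣ y - teichmuller p t ^ l * v) :
    ∃ v' ∈ WJ hJ, (p : WittVector p C) ^ (I + 1) ∣ y - teichmuller p t ^ (l + 1) * v' := by
  classical
  let u : WittVector p C := v + teichmuller p t ^ (I - l) * x
  have hu : u ∈ WJ hJ := Ideal.add_mem _ hv (Ideal.mul_mem_left _ _ hx)
  have hpy : (p : WittVector p C) ^ (I + 1) ∣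
      teichmuller p (0 : C) + (p : WittVector p C) * y - teichmuller p (t ^ (l + 1)) * u := by
    have h1 : teichmuller p (0 : C) + (p : WittVector p C) * y -
        teichmuller p (t ^ (l + 1)) * u =
        (((p : WittVector p C) - teichmuller p t) * y - teichmuller p t ^ (I + 1) * x) +
          teichmuller p t * (y - teichmuller p t ^ l * v) := by
      have h2 : teichmuller p t ^ (I + 1) =
          teichmuller p t ^ (l + 1) * teichmuller p t ^ (I - l) := by
        rw [← pow_add]; congr 1; omega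
      rw [teichmuller_zero, map_pow, h2]; simp only [u]; ring
    rw [h1]
    exact dvd_add hy (Dvd.dvd.mul_left hyv _)
  have hc : ∀ k < I, dig y k = t ^ (l + 1) * dig u (k + 1) := by
    intro k hk
    have := dig_congr hpy (n := k + 1) (by omega)
    rw [dig_succ, dig_teichmuller_mul] at this
    exact this
  let d : ℕ → C := fun k => if k < I then dig u (k + 1) else
    if k = I then t ^ (m - (l + 1)) * a else 0
  have hd : ∀ k, d k ∈ J := by
    intro k
    simp only [d]
    split_ifs
    · exact hu _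
    · exact J.mul_mem_left _ ha
    · exact J.zero_mem
  refine ⟨ofDig d, ofDig_mem hJ hd, ?_⟩
  rw [P202.Mix.dvd_sub_iff]
  intro i hi
  have h3 : dig y i = dig (teichmuller p t ^ (l + 1) * ofDig d) i := by
    rw [← map_pow, dig_teichmuller_mul, dig_ofDig]
    simp only [d]
    by_cases h : i < I
    · rw [if_pos h, hc i h]
    · have h4 : i = I := by omega
      rw [if_neg h, if_pos h4, h4, hI, ← mul_assoc, ← pow_add]
      congr 2
      omega
  rw [← dig_pow, ← dig_pow, h3]

/-- The key lemma inside `W(J)`. -/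
theorem key_J {J : Ideal C} (hJ : IsPerf p J) {t : C} (ht : t ∈ nonZeroDivisors C)
    {x : WittVector p C} (hx : x ∈ WJ hJ) (I m : ℕ) (hm : m ≤ I + 1) {a : C} (ha : a ∈ J)
    (hI : dig (kap t I x) I = t ^ m * a) :
    ∃ v ∈ WJ hJ, ∃ w ∈ WJ hJ, x = ((p : WittVector p C) - teichmuller p t) * v +
      (p : WittVector p C) ^ m * w := by
  have hy := kap_eq t I x
  have hind : ∀ l ≤ m, ∃ v ∈ WJ hJ,
      (p : WittVector p C) ^ (I + 1) ∣ kap t I x - teichmuller p t ^ l * v := by
    intro l
    induction l with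
    | zero => intro _; exact ⟨kap t I x, kap_mem hJ t I hx, by simp⟩
    | succ l ih =>
      intro hl
      obtain ⟨v, hv, h⟩ := ih (by omega)
      exact key_step_J hJ t hx I l m (by omega) hm ha hI ⟨-x, hy⟩ hv h
  obtain ⟨v, hv, hyv⟩ := hind m le_rfl
  have hE : ((p : WittVector p C) - teichmuller p t).coeff 0 ∈ nonZeroDivisors C := by
    have h1 : ((p : WittVector p C) - teichmuller p t).coeff 0 = -t := by
      have h2 := map_sub (WittVector.constantCoeff (p := p) (R := C)) (p : WittVector p C)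
        (teichmuller p t)
      change ((p : WittVector p C) - teichmuller p t).coeff 0 = _ at h2
      rw [h2, map_natCast, CharP.cast_eq_zero]
      change 0 - (teichmuller p t).coeff 0 = -t
      rw [teichmuller_coeff_zero, zero_sub]
    rw [h1, ← neg_one_mul]
    exact mul_mem (IsUnit.mem_nonZeroDivisors isUnit_one.neg) ht
  -- `[t]^(I+1-m) x ≡ ξ v` modulo `p^(I+1)`
  have h1 : (p : WittVector p C) ^ (I + 1) ∣ teichmuller p (t ^ m) *
      (teichmuller p t ^ (I + 1 - m) * x - ((p : WittVector p C) - teichmuller p t) * v) - 0 := by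
    have h2 : teichmuller p (t ^ m) *
        (teichmuller p t ^ (I + 1 - m) * x - ((p : WittVector p C) - teichmuller p t) * v) - 0 =
        ((p : WittVector p C) - teichmuller p t) * (kap t I x - teichmuller p t ^ m * v) -
        (((p : WittVector p C) - teichmuller p t) * kap t I x -
          teichmuller p t ^ (I + 1) * x) := by
      have h3 : teichmuller p t ^ (I + 1) = teichmuller p t ^ m * teichmuller p t ^ (I + 1 - m) := by
        rw [← pow_add]; congr 1; omega
      rw [map_pow, h3]; ring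
    rw [h2]
    exact dvd_sub (Dvd.dvd.mul_left hyv _) ⟨-x, hy⟩
  have h2 : (p : WittVector p C) ^ (I + 1) ∣
      teichmuller p t ^ (I + 1 - m) * x - ((p : WittVector p C) - teichmuller p t) * v := by
    rw [← sub_zero (teichmuller p t ^ (I + 1 - m) * x - _), P202.Mix.dvd_sub_iff]
    intro i hi
    have h3 := dig_congr h1 hi
    rw [dig_teichmuller_mul] at h3
    have h4 : dig (0 : WittVector p C) i = 0 := by
      rw [dig_eq_iff, zero_coeff, zero_pow (pow_ne_zero _ (Fact.out : p.Prime).ne_zero)]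
    rw [h4] at h3
    have h5 := (mul_left_mem_nonZeroDivisors_eq_zero_iff (pow_mem ht m)).1 h3
    rw [dig_eq_iff, zero_pow (pow_ne_zero _ (Fact.out : p.Prime).ne_zero)] at h5
    rw [h5, zero_coeff]
  obtain ⟨w, hw, h3⟩ := exists_of_dvd hJ (Ideal.sub_mem _ (Ideal.mul_mem_left _ _ hx)
    (Ideal.mul_mem_left _ _ hv)) (I + 1) h2
  -- replace `[t]` by `p` modulo `ξ`
  obtain ⟨s, hs⟩ : ∃ s : WittVector p C, (p : WittVector p C) ^ (I + 1 - m) -
      teichmuller p t ^ (I + 1 - m) = ((p : WittVector p C) - teichmuller p t) * s := by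
    obtain ⟨s, hs⟩ := sub_dvd_pow_sub_pow (p : WittVector p C) (teichmuller p t) (I + 1 - m)
    exact ⟨s, hs⟩
  have h4 : ((p : WittVector p C) - teichmuller p t) * (v + s * x) =
      (p : WittVector p C) ^ (I + 1 - m) * (x - (p : WittVector p C) ^ m * w) := by
    have h5 : (p : WittVector p C) ^ (I + 1) = (p : WittVector p C) ^ (I + 1 - m) *
        (p : WittVector p C) ^ m := by
      rw [← pow_add]; congr 1; omega
    rw [h5] at h3
    have h6 : (p : WittVector p C) ^ (I + 1 - m) * x = teichmuller p t ^ (I + 1 - m) * x +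
        ((p : WittVector p C) - teichmuller p t) * s * x := by rw [← hs]; ring
    rw [mul_sub, h6, ← mul_assoc, ← h3]
    ring
  obtain ⟨z, hz, -, h5⟩ := exists_of_mul_eq_pow hJ hE (I + 1 - m)
    (Ideal.add_mem _ hv (Ideal.mul_mem_left _ s hx)) h4
  exact ⟨z, hz, w, hw, by rw [← h5]; ring⟩

/-- the coordinate used in `key_J` is divisible by `t ^ (I + 1)` for elements of
`(p - [t], p ^ (I + 1))`. -/
theorem dig_kap (t : C) (I : ℕ) {x v v' : WittVector p C}
    (h : x = ((p : WittVector p C) - teichmuller p t) * v + (p : WittVector p C) ^ (I + 1) * v') :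
    dig (kap t I x) I = t ^ (I + 1) * dig v I := by
  have h1 : (p : WittVector p C) ^ (I + 1) ∣ kap t I x - teichmuller p (t ^ (I + 1)) * v := by
    refine ⟨-v + kap t I v', ?_⟩
    have h2 := kap_eq t I v
    rw [h, map_pow]
    simp only [kap] at h2 ⊢
    linear_combination h2
  rw [dig_congr h1 (Nat.lt_succ_self I), dig_teichmuller_mul]

/-- Relations inside `W(J)`: an element of `W(J)` which vanishes in `W(C)` modulo
`(p - [t], p ^ (I + 1))` vanishes in `W(J)` modulo `(p - [t], p ^ m)` after multiplication by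
`[b]`, where `b` maps the roots `a ^ ((q - r) / q)`, `a ∈ J`, to `J` and `m q ≤ (I + 1) r`. -/
theorem rel_J {J : Ideal C} (hJ : IsPerf p J) {t : C} (ht : t ∈ nonZeroDivisors C)
    (J1 : Ideal C) (e r : ℕ) (hr : r ≤ p ^ e) (h1 : ∀ a ∈ J, rt p e a ^ (p ^ e - r) ∈ J1) {b : C}
    (h2 : ∀ a ∈ J1, b * a ∈ J) (I m : ℕ) (hm : m ≤ I + 1) (hm' : m * p ^ e ≤ (I + 1) * r)
    {x : WittVector p C} (hx : x ∈ WJ hJ) {v v' : WittVector p C}
    (h : x = ((p : WittVector p C) - teichmuller p t) * v + (p : WittVector p C) ^ (I + 1) * v') :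
    ∃ v ∈ WJ hJ, ∃ w ∈ WJ hJ, teichmuller p b * x =
      ((p : WittVector p C) - teichmuller p t) * v + (p : WittVector p C) ^ m * w := by
  have h3 := dig_kap t I h
  have h4 : dig (kap t I x) I ∈ J := kap_mem hJ t I hx I
  set a := dig (kap t I x) I with ha
  set c := dig v I
  have h5 : a = t ^ m * ((rt p e t ^ ((I + 1) * r - m * p ^ e) * rt p e c ^ r) *
      rt p e a ^ (p ^ e - r)) := by
    have h6 : a = rt p e a ^ r * rt p e a ^ (p ^ e - r) := by
      rw [← pow_add, Nat.add_sub_cancel' hr, rt_pow]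
    have h7 : rt p e a ^ r = t ^ m * (rt p e t ^ ((I + 1) * r - m * p ^ e) * rt p e c ^ r) := by
      have h8 : rt p e a = rt p e t ^ (I + 1) * rt p e c := by
        rw [h3, rt_mul, rt_pow_comm]
      have h9 : t ^ m = rt p e t ^ (m * p ^ e) := by
        rw [mul_comm, pow_mul, rt_pow]
      rw [h8, mul_pow, ← pow_mul, h9, ← mul_assoc, ← pow_add, Nat.add_sub_cancel' hm']
    conv_lhs => rw [h6, h7]
    ring
  refine key_J hJ ht (Ideal.mul_mem_left _ _ hx) I m hm
    (a := (rt p e t ^ ((I + 1) * r - m * p ^ e) * rt p e c ^ r) *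
      (b * rt p e a ^ (p ^ e - r))) (Ideal.mul_mem_left _ _ (h2 _ (h1 _ h4))) ?_
  rw [kap_mul, dig_teichmuller_mul, ← ha]
  conv_lhs => rw [h5]
  ring

end Vale.Agent.P177.WJ
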